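import Vale.Agent.P022.H567.Gch
import Vale.Agent.P022.H651.OneM

/-!
P022-CFT, block [GCH]: reciprocity for a continuous `2`-adic character of `G_K`, from reciprocity
for the characters of finite order.
-/

open NumberField IsDedekindDomain Finset Matrix

noncomputable section

namespace Vale.Agent.P022.H477.GC

open Vale.Agent.P022 Vale.Agent.P022.C

variable {K : Type} [Field K] [NumberField K] {j : K →+* Qb}

/-! ### valuations of an integer -/

theorem ordv_eq_zero {v : HeightOneSpectrum (𝓞 K)} {α : 𝓞 K} (h : α ∉ v.asIdeal) :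
    ordv v (α : K) = 0 := by
  have h1 : v.valuation K (α : K) = 1 := by
    rw [HeightOneSpectrum.valuation_eq_one_iff_notMem]
    exact h
  rw [ordv, h1, WithZero.log_one, neg_zero]

theorem fin_ordv {α : 𝓞 K} (hα : α ≠ 0) :
    {v : HeightOneSpectrum (𝓞 K) | ordv v (α : K) ≠ 0}.Finite := by
  refine (Ideal.finite_factors (I := Ideal.span {α}) (by simpa using hα)).subset fun v hv => ?_
  by_contra h
  refine hv (ordv_eq_zero fun hmem => h ?_)
  simpa [Ideal.dvd_span_singleton] using hmem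

/-! ### the character with values in the units of absolute value one -/

variable {E : Type} [NontriviallyNormedField E]

/-- `χ` with values in `UE E` -/
def ch (χ : GK j →* Eˣ) (h : ∀ g, χ g ∈ UE E) : GK j →* UE E := χ.codRestrict (UE E) h

omit [NumberField K] in
@[simp] theorem ch_coe (χ : GK j →* Eˣ) (h : ∀ g, χ g ∈ UE E) (g : GK j) :
    ((ch χ h g : UE E) : Eˣ) = χ g := rfl

omit [NumberField K] in
theorem ch_eq_one {χ : GK j →* Eˣ} {h : ∀ g, χ g ∈ UE E} {g : GK j} (hg : χ g = 1) :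
    ch χ h g = 1 := Subtype.ext hg

omit [NumberField K] in
theorem open_ker (χ : GK j →* Eˣ) (hχ : Continuous χ) (h : ∀ g, χ g ∈ UE E) {n : ℕ}
    (l : UE E →* Multiplicative (ZMod n)) {δ : ℝ} (hδ : 0 < δ)
    (hl : ∀ x : UE E, ‖((x : Eˣ) : E) - 1‖ < δ → l x = 1) :
    IsOpen {g : GK j | (l.comp (ch χ h)) g = 1} := by
  have hc : Continuous fun g : GK j => ((χ g : Eˣ) : E) := Units.continuous_val.comp hχ
  have h1 : {g : GK j | ‖((χ g : Eˣ) : E) - 1‖ < δ} ∈ nhds (1 : GK j) := by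
    have ho : IsOpen {g : GK j | ‖((χ g : Eˣ) : E) - 1‖ < δ} :=
      isOpen_lt (hc.sub continuous_const).norm continuous_const
    refine ho.mem_nhds ?_
    simpa using hδ
  have h2 : IsOpen (((l.comp (ch χ h)).ker : Subgroup (GK j)) : Set (GK j)) := by
    refine Subgroup.isOpen_of_mem_nhds _ (g := 1) (Filter.mem_of_superset h1 fun g hg => ?_)
    exact hl (ch χ h g) hg
  exact h2

omit [NumberField K] in
theorem cj_sq {φ : K →+* ℝ} {g : GK j} (hg : CjI j φ g) : g * g = 1 := by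
  obtain ⟨Φ, -, h2⟩ := hg
  refine Subtype.ext (AlgEquiv.ext fun x => Φ.injective ?_)
  change Φ ((g : GQ) ((g : GQ) x)) = Φ x
  rw [h2, h2, Complex.conj_conj]

/-- **The reciprocity law at one level of precision.** -/
theorem level (hF : FCHStmt) (hR : FREStmt) (hT : TPQStmt) [NormedAlgebra ℚ_[2] E]
    [IsUltrametricDist E] [FiniteDimensional ℚ_[2] E] (χ : GK j →* Eˣ) (hχ : Continuous χ)
    (hU : ∀ g, χ g ∈ UE E) (frob : HeightOneSpectrum (𝓞 K) → GK j)
    (hfrob : ∀ v, ∃ P, FrI j v P (frob v)) (cj : (K →+* ℝ) → GK j)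
    (hcj : ∀ φ, CjI j φ (cj φ)) (ε : ℝ) (hε : 0 < ε) :
    ∃ M : ℕ, M ≠ 0 ∧ (∀ p : ℕ, p.Prime → p ∣ M → ∃ P : Ideal (𝓞 Qb), P.IsPrime ∧
      (p : 𝓞 Qb) ∈ P ∧ ∃ g : GK j, InI j P g ∧ χ g ≠ 1) ∧
    ∀ (F : HeightOneSpectrum (𝓞 K) → UE E) (α : 𝓞 K), α ≠ 0 → (M : 𝓞 K) ∣ α - 1 →
      (∀ v, ordv v (α : K) ≠ 0 → F v = ch χ hU (frob v)) →
      ‖((((∏ᶠ v, F v ^ ordv v (α : K)) *
        ∏ᶠ φ ∈ {φ : K →+* ℝ | φ (α : K) < 0}, ch χ hU (cj φ) : UE E) : Eˣ) : E) - 1‖ < ε := by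
  obtain ⟨t, n, l, δ, hδ, hn, hl, hT'⟩ := hT E ε hε
  choose m hm0 hm1 hm2 hm3 using fun i => hF K j (n i) (hn i) ((l i).comp (ch χ hU))
    (open_ker χ hχ hU (l i) hδ (hl i))
  refine ⟨∏ i, m i, Finset.prod_ne_zero_iff.2 fun i _ => hm0 i, ?_, ?_⟩
  · intro p hp hpM
    obtain ⟨i, -, hi⟩ := (Prime.dvd_finsetProd_iff hp.prime _).1 hpM
    obtain ⟨P, hP, hpP, g, hg, hθ⟩ := hm1 i p hp hi
    refine ⟨P, hP, hpP, g, hg, fun h => hθ ?_⟩
    rw [MonoidHom.comp_apply, ch_eq_one h, map_one]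
  · intro F α hα hM hFv
    refine hT' _ fun i => ?_
    have hfin := fin_ordv hα
    have hs : {φ : K →+* ℝ | φ (α : K) < 0}.Finite := Set.toFinite _
    have key := hm3 i (fun v => (((l i).comp (ch χ hU)) (frob v)).toAdd) ?_
      (fun φ => (((l i).comp (ch χ hU)) (cj φ)).toAdd) ?_ α hα ?_
    · rw [map_mul, MonoidHom.map_finprod (l i), MonoidHom.map_finprod_mem _ _ hs]
      · apply Multiplicative.toAdd.injective
        rw [toAdd_mul, toAdd_one, ← key]
        congr 1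
        · rw [finprod_eq_prod_of_mulSupport_subset (s := hfin.toFinset),
            finsum_eq_sum_of_support_subset (s := hfin.toFinset), toAdd_prod]
          · refine Finset.sum_congr rfl fun v hv => ?_
            rw [Set.Finite.mem_toFinset] at hv
            rw [hFv v hv, map_zpow, toAdd_zpow]
            rfl
          · intro v hv
            rw [Set.Finite.coe_toFinset]
            intro h0
            exact hv (by simp [h0])
          · intro v hv
            rw [Set.Finite.coe_toFinset]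
            intro h0
            exact hv (by simp [h0])
        · rw [finprod_mem_eq_finite_toFinset_prod _ hs, finsum_mem_eq_finite_toFinset_sum _ hs,
            toAdd_prod]
          rfl
      · refine hfin.subset fun v hv h0 => hv ?_
        simp only [h0, zpow_zero]
    · intro v P g hmv hg
      obtain ⟨P', hP'⟩ := hfrob v
      have h3 := (hR K j).2.1 _ ((l i).comp (ch χ hU)) v (fun Q hQ hQv g' hg' => ?_) P P' g _ hg hP'
      · rw [h3]
      · refine hm2 i Q hQ ?_ ?_ g' hg'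
        · rintro rfl
          apply v.ne_bot
          rw [← hQv]
          ext x
          rw [below, Ideal.mem_comap, Ideal.mem_bot, Ideal.mem_bot]
          exact map_eq_zero_iff _ (RingHom.injective_iff_ker_eq_bot _ |>.2 (by
            rw [RingHom.ker_eq_bot_iff_eq_zero]
            intro y hy
            ext
            have := congrArg (fun z : 𝓞 Qb => (z : Qb)) hy
            simpa using this))
        · intro hmem
          apply hmv
          rw [← hQv, below, Ideal.mem_comap, map_natCast]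
          exact hmem
    · intro φ g hg
      have h3 := (hR K j).2.2.1 _ ((l i).comp (ch χ hU)) φ g (cj φ) hg (hcj φ)
      rw [h3]
    · refine dvd_trans ?_ hM
      have : m i ∣ ∏ i, m i := Finset.dvd_prod_of_mem _ (Finset.mem_univ i)
      exact map_dvd (Nat.castRingHom (𝓞 K)) this

/-! ### primes below -/

omit [NumberField K] in
/-- a prime ideal containing a nonzero natural number contains a prime divisor of it -/
theorem exists_prime_mem {R : Type*} [CommRing R] {P : Ideal R} (hP : P.IsPrime) :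
    ∀ n : ℕ, n ≠ 0 → (n : R) ∈ P → ∃ p : ℕ, p.Prime ∧ p ∣ n ∧ (p : R) ∈ P := by
  intro n
  induction n using Nat.strong_induction_on with
  | _ n ih =>
    intro hn hmem
    have h1 : n ≠ 1 := by
      rintro rfl
      exact hP.ne_top ((Ideal.eq_top_iff_one _).2 (by simpa using hmem))
    have hp := Nat.minFac_prime h1
    obtain ⟨k, hk⟩ := Nat.minFac_dvd n
    rw [hk, Nat.cast_mul] at hmem
    rcases hP.mem_or_mem hmem with h | h
    · exact ⟨n.minFac, hp, Nat.minFac_dvd n, h⟩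
    · have hk0 : k ≠ 0 := by
        rintro rfl
        exact hn (by rw [hk, mul_zero])
      have hkn : k < n := by
        have h2 : 2 ≤ n.minFac := hp.two_le
        calc k < 2 * k := by omega
          _ ≤ n.minFac * k := Nat.mul_le_mul_right _ h2
          _ = n := hk.symm
      obtain ⟨p, h3, h4, h5⟩ := ih k hkn hk0 h
      exact ⟨p, h3, h4.trans ⟨n.minFac, by rw [mul_comm]; exact hk⟩, h5⟩

theorem prime_below {P : Ideal (𝓞 Qb)} {v : HeightOneSpectrum (𝓞 K)} (hP : P.IsPrime)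
    (hv : below j P = v.asIdeal) : ∃ p : ℕ, p.Prime ∧ (p : 𝓞 Qb) ∈ P := by
  have h0 : Ideal.absNorm v.asIdeal ≠ 0 := by
    rw [Ne, Ideal.absNorm_eq_zero_iff]
    exact v.ne_bot
  have h1 : ((Ideal.absNorm v.asIdeal : ℕ) : 𝓞 K) ∈ below j P := by
    rw [hv]
    exact Ideal.absNorm_mem _
  rw [below, Ideal.mem_comap, map_natCast] at h1
  obtain ⟨p, h3, -, h5⟩ := exists_prime_mem hP _ h0 h1
  exact ⟨p, h3, h5⟩

/-- **[GCH]** -/
theorem GCH (hF : FCHStmt) (hR : FREStmt) (hT : TPQStmt) (hC : CPTStmt) (hPsi : PSIStmt)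
    (hW : POWCStmt) : GCHStmt := by
  classical
  intro K _ _ j E _ _ _ _ χ hχ S hS
  have hU : ∀ g, χ g ∈ UE E := hC K j E χ hχ
  choose Pf frob hfrob using (hR K j).1
  choose cj hcj using (hR K j).2.2.2
  have hfrob' : ∀ v, ∃ P, FrI j v P (frob v) := fun v => ⟨Pf v, hfrob v⟩
  obtain ⟨M0, hM0, hM0r, hM0l⟩ := level hF hR hT χ hχ hU frob hfrob' cj hcj 1 one_pos
  obtain ⟨k0, m0, hm0, hM0eq⟩ := Nat.exists_eq_two_pow_mul_odd hM0
  let Ram : ℕ → Prop := fun p => ∃ P : Ideal (𝓞 Qb), P.IsPrime ∧ (p : 𝓞 Qb) ∈ P ∧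
    ∃ g : GK j, InI j P g ∧ χ g ≠ 1
  let R : Finset ℕ := S.filter fun p => p.Prime ∧ p ≠ 2 ∧ Ram p
  have hRam : ∀ p : ℕ, p.Prime → p ≠ 2 → Ram p → p ∈ R := by
    intro p hp hp2 hr
    refine Finset.mem_filter.2 ⟨?_, hp, hp2, hr⟩
    by_contra hpS
    obtain ⟨P, h1, h2, g, h3, h4⟩ := hr
    exact h4 (hS p hp hpS P h1 h2 g h3)
  set m : ℕ := (∏ p ∈ R, p) * m0 with hm
  have hmodd : Odd m := by
    refine Odd.mul ?_ hm0
    refine Finset.prod_induction _ Odd (fun _ _ => Odd.mul) odd_one fun p hp => ?_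
    obtain ⟨-, h1, h2, -⟩ := Finset.mem_filter.1 hp
    exact h1.odd_of_ne_two h2
  have hmr : ∀ p : ℕ, p.Prime → p ∣ m → Ram p := by
    intro p hp hpm
    rcases (Nat.Prime.dvd_mul hp).1 hpm with h | h
    · obtain ⟨q, hq, hpq⟩ := (Prime.dvd_finsetProd_iff hp.prime _).1 h
      obtain ⟨-, h1, -, h3⟩ := Finset.mem_filter.1 hq
      rwa [(Nat.prime_dvd_prime_iff_eq hp h1).1 hpq]
    · exact hM0r p hp (h.trans ⟨2 ^ k0, by rw [hM0eq, mul_comm]⟩)
  have hmr' : ∀ p : ℕ, p.Prime → p ≠ 2 → Ram p → p ∣ m := fun p hp hp2 hr =>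
    (Finset.dvd_prod_of_mem _ (hRam p hp hp2 hr)).trans ⟨m0, rfl⟩
  -- ramification away from `2m`
  have hur : ∀ ℓ : ℕ, ℓ.Prime → ¬ ℓ ∣ 2 * m → ∀ P : Ideal (𝓞 Qb), P.IsPrime → (ℓ : 𝓞 Qb) ∈ P →
      ∀ g : GK j, InI j P g → χ g = 1 := by
    intro ℓ hℓ hℓm P hP hℓP g hg
    by_contra h
    refine hℓm ?_
    by_cases h2 : ℓ = 2
    · exact h2 ▸ dvd_mul_right _ _
    · exact (hmr' ℓ hℓ h2 ⟨P, hP, hℓP, g, hg, h⟩).mul_left _
  have hurv : ∀ v : HeightOneSpectrum (𝓞 K), ((2 * m : ℕ) : 𝓞 K) ∉ v.asIdeal →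
      ∀ P : Ideal (𝓞 Qb), P.IsPrime → below j P = v.asIdeal → ∀ g : GK j, InI j P g → χ g = 1 := by
    intro v hv P hP hPv g hg
    obtain ⟨ℓ, hℓ, hℓP⟩ := prime_below hP hPv
    refine hur ℓ hℓ (fun hd => hv ?_) P hP hℓP g hg
    rw [← hPv, below, Ideal.mem_comap, map_natCast]
    obtain ⟨k, hk⟩ := hd
    rw [hk, Nat.cast_mul]
    exact P.mul_mem_right _ hℓP
  let F : HeightOneSpectrum (𝓞 K) → UE E := fun v =>
    if ((2 * m : ℕ) : 𝓞 K) ∈ v.asIdeal then 1 else ch χ hU (frob v)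
  obtain ⟨ψ, hψ1, hψ2⟩ := hPsi K E (fun v => (((F v : UE E) : Eˣ) : E)) fun v => Units.ne_zero _
  refine ⟨m, ψ, hmodd, hmr, ?_, ?_⟩
  · -- `Attached`
    intro ℓ hℓ hℓm P hP hℓP g
    refine ⟨hur ℓ hℓ hℓm P hP hℓP g, fun hg => ?_⟩
    have hprime : (below j P).IsPrime := by
      rw [below]; exact Ideal.IsPrime.comap _
    have hℓv : (ℓ : 𝓞 K) ∈ below j P := by
      rw [below, Ideal.mem_comap, map_natCast]; exact hℓP
    have hne : below j P ≠ ⊥ := by
      intro h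
      rw [h, Ideal.mem_bot] at hℓv
      exact hℓ.ne_zero (by exact_mod_cast hℓv)
    let v : HeightOneSpectrum (𝓞 K) := ⟨below j P, hprime, hne⟩
    have hv : ((2 * m : ℕ) : 𝓞 K) ∉ v.asIdeal := by
      intro hmem
      have hco : Nat.Coprime ℓ (2 * m) := (Nat.Prime.coprime_iff_not_dvd hℓ).2 hℓm
      have h1 : (1 : 𝓞 K) ∈ v.asIdeal := by
        have h2 := Nat.isCoprime_iff_coprime.2 hco
        obtain ⟨a, b, hab⟩ := h2
        have h3 : (a : 𝓞 K) * (ℓ : 𝓞 K) + (b : 𝓞 K) * ((2 * m : ℕ) : 𝓞 K) = 1 := by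
          exact_mod_cast congrArg (Int.cast : ℤ → 𝓞 K) hab
        rw [← h3]
        exact v.asIdeal.add_mem (v.asIdeal.mul_mem_left _ hℓv) (v.asIdeal.mul_mem_left _ hmem)
      exact v.isPrime.ne_top ((Ideal.eq_top_iff_one _).2 h1)
    have h1 : χ g = χ (frob v) :=
      (hR K j).2.1 _ χ v (hurv v hv) P (Pf v) g (frob v) ⟨hP, rfl, hg⟩ (hfrob v)
    have h2 : ψ (below j P) = (((F v : UE E) : Eˣ) : E) := hψ1 v
    rw [h2, h1]
    simp only [F, if_neg hv, ch_coe]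
  · intro c hc ε hε
    have hcφ : ∀ φ, c φ = (χ (cj φ) : E) := fun φ => (hc φ (cj φ) (hcj φ)).symm
    obtain ⟨M, hM, hMr, hMl⟩ := level hF hR hT χ hχ hU frob hfrob' cj hcj ε hε
    obtain ⟨k, m', hm', hMeq⟩ := Nat.exists_eq_two_pow_mul_odd hM
    have hpm : ∀ p : ℕ, p.Prime → p ∣ m' → p ∣ m := by
      intro p hp hpm'
      refine hmr' p hp ?_ (hMr p hp (hpm'.trans ⟨2 ^ k, by rw [hMeq, mul_comm]⟩))
      rintro rfl
      exact (Nat.not_even_iff_odd.2 hm') (even_iff_two_dvd.2 hpm')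
    obtain ⟨q, hq, hq'⟩ := hW K m m' (k + k0 + 1) hmodd hm' hpm
    have hs : ∀ α : 𝓞 K, {φ : K →+* ℝ | φ (α : K) < 0}.Finite := fun α => Set.toFinite _
    have hX : ∀ β : 𝓞 K, β ≠ 0 → ((((∏ᶠ v, F v ^ ordv v (β : K)) *
        ∏ᶠ φ ∈ {φ : K →+* ℝ | φ (β : K) < 0}, ch χ hU (cj φ) : UE E) : Eˣ) : E) =
        ψ (Ideal.span {β}) * ∏ᶠ φ ∈ {φ : K →+* ℝ | φ (β : K) < 0}, c φ := by
      intro β hβ
      rw [hψ2 β hβ]
      have e1 := MonoidHom.map_finprod ((Units.coeHom E).comp (UE E).subtype)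
        (f := fun v => F v ^ ordv v (β : K)) ?_
      · have e2 := MonoidHom.map_finprod_mem (fun φ => ch χ hU (cj φ))
          ((Units.coeHom E).comp (UE E).subtype) (hs β)
        rw [Subgroup.coe_mul, Units.val_mul]
        change ((Units.coeHom E).comp (UE E).subtype) _ *
          ((Units.coeHom E).comp (UE E).subtype) _ = _
        rw [e1, e2]
        congr 1
        · refine finprod_congr fun v => ?_
          rw [map_zpow]
          simp
        · refine finprod_mem_congr rfl fun φ _ => ?_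
          rw [hcφ]
          rfl
      · refine (fin_ordv hβ).subset fun v hv h0 => hv ?_
        simp only [h0, zpow_zero]
    refine ⟨k + k0 + 1, fun α hα hdiv => ?_⟩
    have hFv : ∀ β : 𝓞 K, ((2 ^ (k + k0 + 1) * m : ℕ) : 𝓞 K) ∣ β - 1 →
        ∀ v, ordv v (β : K) ≠ 0 → F v = ch χ hU (frob v) := by
      intro β hβ v hv
      by_cases h : ((2 * m : ℕ) : 𝓞 K) ∈ v.asIdeal
      · exfalso
        refine hv (ordv_eq_zero fun hβv => ?_)
        have h1 : ((2 ^ (k + k0 + 1) * m : ℕ) : 𝓞 K) ∈ v.asIdeal := by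
          rw [show 2 ^ (k + k0 + 1) * m = 2 ^ (k + k0) * (2 * m) by ring, Nat.cast_mul]
          exact v.asIdeal.mul_mem_left _ h
        obtain ⟨z, hz⟩ := hβ
        have h2 : β - 1 ∈ v.asIdeal := by rw [hz]; exact v.asIdeal.mul_mem_right _ h1
        have h3 : (1 : 𝓞 K) ∈ v.asIdeal := by
          have := v.asIdeal.sub_mem hβv h2
          simpa using this
        exact v.isPrime.ne_top ((Ideal.eq_top_iff_one _).2 h3)
      · simp only [F, if_neg h]
    have hdvd : ((2 ^ (k + k0 + 1) * m : ℕ) : 𝓞 K) ∣ α ^ q - 1 :=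
      hdiv.trans (sub_one_dvd_pow_sub_one α q)
    have h1 : ‖ψ (Ideal.span {α}) * (∏ᶠ φ ∈ {φ : K →+* ℝ | φ (α : K) < 0}, c φ) - 1‖ < 1 := by
      rw [← hX α hα]
      refine hM0l F α hα (dvd_trans ?_ hdiv) (hFv α hdiv)
      have : M0 ∣ 2 ^ (k + k0 + 1) * m :=
        ⟨2 ^ (k + 1) * ∏ p ∈ R, p, by rw [hM0eq, hm]; ring⟩
      exact map_dvd (Nat.castRingHom (𝓞 K)) this
    have hαq : α ^ q ≠ 0 := pow_ne_zero _ hα
    have h2 : ‖ψ (Ideal.span {α ^ q}) *
        (∏ᶠ φ ∈ {φ : K →+* ℝ | φ ((α ^ q : 𝓞 K) : K) < 0}, c φ) - 1‖ < ε := by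
      rw [← hX _ hαq]
      refine hMl F _ hαq (dvd_trans ?_ (hq' α hdiv)) (hFv _ hdvd)
      have : M ∣ 2 ^ (k + k0 + 1) * m' := ⟨2 ^ (k0 + 1), by rw [hMeq]; ring⟩
      exact map_dvd (Nat.castRingHom (𝓞 K)) this
    have h3 : ψ (Ideal.span {α ^ q}) *
        (∏ᶠ φ ∈ {φ : K →+* ℝ | φ ((α ^ q : 𝓞 K) : K) < 0}, c φ) =
        (ψ (Ideal.span {α}) * (∏ᶠ φ ∈ {φ : K →+* ℝ | φ (α : K) < 0}, c φ)) ^ q := by
      have e1 : {φ : K →+* ℝ | φ ((α ^ q : 𝓞 K) : K) < 0} = {φ : K →+* ℝ | φ (α : K) < 0} := by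
        ext φ
        simp only [Set.mem_ofPred_eq]
        rw [show ((α ^ q : 𝓞 K) : K) = (α : K) ^ q by push_cast; rfl, map_pow]
        exact hq.pow_neg_iff
      have e2 : (∏ᶠ φ ∈ {φ : K →+* ℝ | φ (α : K) < 0}, c φ) ^ 2 = 1 := by
        rw [finprod_mem_eq_finite_toFinset_prod _ (hs α), ← Finset.prod_pow]
        refine Finset.prod_eq_one fun φ _ => ?_
        rw [hcφ, ← Units.val_pow_eq_pow_val, ← map_pow, sq, cj_sq (hcj φ), map_one, Units.val_one]
      obtain ⟨u, hu⟩ := hq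
      rw [e1, ← Ideal.span_singleton_pow, map_pow, mul_pow]
      congr 1
      rw [hu, pow_succ, pow_mul, e2, one_pow, one_mul]
    rw [h3, H651.norm_pow_sub_one h1 hq] at h2
    exact h2

end Vale.Agent.P022.H477.GC
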