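import Vale.Agent.P022.H352.Ker

/-!
P022, real quadratic fields: Hecke's theta series of weight one (definitions and literals of
[RUNF], [RHOL], [RCUSP], [RMFT]).
-/

open scoped ModularForm MatrixGroups Manifold
open UpperHalfPlane hiding I
open Complex
open scoped Real ComplexConjugate

noncomputable section

namespace Vale.Agent.P022.H477

open Vale.Agent.P022 Vale.Agent.P022.H352

/-- `A` is the action of a unit with eigenvalues `u > 1` and `u⁻¹` -/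
structure Unt (a b : ℤ) (D : ℕ) (u : ℝ) (A : (ℤ × ℤ) ≃+ (ℤ × ℤ)) : Prop where
  one_lt : 1 < u
  h1 : ∀ v, e1 a b D (A v) = u * e1 a b D v
  h2 : ∀ v, e2 a b D (A v) = u⁻¹ * e2 a b D v

/-- fundamental domain of `⟨A⟩` on the vectors with `s Q > 0` (`s = 1` or `s = -1`) -/
def FD (a b c : ℤ) (D : ℕ) (u : ℝ) (s : ℤ) : Set (ℤ × ℤ) :=
  {v | 0 < s * Qf a b c v ∧ |e2 a b D v| ≤ |e1 a b D v| ∧ |e1 a b D v| < u ^ 2 * |e2 a b D v|}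

/-- the coefficient: `f(v) sgn(e1 v)` on the fundamental domain, `0` elsewhere -/
def hC (a b c : ℤ) (D : ℕ) (u : ℝ) (s : ℤ) (f : ℤ × ℤ → ℂ) : ℤ × ℤ → ℂ :=
  (FD a b c D u s).indicator fun v => f v * ((SignType.sign (e1 a b D v) : ℤ) : ℂ)

/-- Hecke's theta series -/
def hR (a b c : ℤ) (D : ℕ) (u : ℝ) (s : ℤ) (f : ℤ × ℤ → ℂ) (w : ℂ) : ℂ :=
  ∑' v, hC a b c D u s f v * cexp (2 * π * I * ((s * Qf a b c v : ℤ) : ℂ) * w)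

/-- [RUNF] the period integral of the kernel -/
def RUNFStmt : Prop := ∀ (a b c : ℤ) (D : ℕ) (_ : 0 < a) (_ : ¬ IsSquare D)
  (_ : b ^ 2 - 4 * a * c = D) (u : ℝ) (A : (ℤ × ℤ) ≃+ (ℤ × ℤ)) (_ : Unt a b D u A)
  (m : ℕ) (_ : 0 < m) (f : ℤ × ℤ → ℂ) (_ : Per m f) (_ : ∀ v, f (A v) = f v)
  (w : ℂ) (_ : 0 < w.im),
  (∫ t in (0 : ℝ)..Real.log u, Tp a b D (Real.exp t) f w) =
    hR a b c D u 1 f w / (2 * (√w.im : ℝ)) ∧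
  (∫ t in (0 : ℝ)..Real.log u, Tm a b D (Real.exp t) f w) =
    hR a b c D u (-1) f w / (2 * (√w.im : ℝ))

/-- [RMFT] Hecke's theta series is a modular form of weight one, with the action of the diamond
operators -/
def RMFTStmt : Prop := ∀ (a b c : ℤ) (D v D₀ : ℕ) (_ : 0 < a) (_ : D = 2 ^ v * D₀) (_ : Odd D₀)
  (_ : ¬ IsSquare D) (_ : b ^ 2 - 4 * a * c = D) (u : ℝ) (A : (ℤ × ℤ) ≃+ (ℤ × ℤ))
  (_ : Unt a b D u A) (m : ℕ) (_ : 0 < m) (f : ℤ × ℤ → ℂ) (_ : Per m f)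
  (_ : ∀ v, f (A v) = f v),
  ∃ G : MF (D * m ^ 2) 1, (∀ τ : ℍ, G τ = hR a b c D u 1 f τ) ∧
    ∀ (ℓ : PA (D * m ^ 2)) (τ : ℍ), dFun (D * m ^ 2) 1 ℓ G τ =
      krP v D₀ (ℓ.1 : ℤ) * hR a b c D u 1 (fun v => f ((ℓ.1 : ℤ) • v)) τ

/-- the stable family -/
def V (a b c : ℤ) (D : ℕ) (u : ℝ) (A : (ℤ × ℤ) ≃+ (ℤ × ℤ)) : Set (ℍ → ℂ) :=
  {F | ∃ (C : ℂ) (ρ : ℚ) (s : ℤ) (f : ℤ × ℤ → ℂ) (q : ℕ), 0 < ρ ∧ (s = 1 ∨ s = -1) ∧ 0 < q ∧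
    Per q f ∧ (∀ v, f (A v) = f v) ∧ ∀ τ : ℍ, F τ = C * hR a b c D u s f (ρ * τ)}

end Vale.Agent.P022.H477
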