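import Vale.Agent.P022.H477.RDef
import Vale.Agent.P022.H964.Lat

/-!
P022, real quadratic fields: convergence, holomorphy, the laws under `T` and `S`, all cusps of
Hecke's theta series of weight one. Rows [RHOL], [RCUSP].
-/

open UpperHalfPlane hiding I
open Filter Topology Matrix.SpecialLinearGroup CongruenceSubgroup Complex
open scoped MatrixGroups ModularForm Manifold Real ComplexConjugate

noncomputable section

namespace Vale.Agent.P022.H477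

open Vale.Agent.P022 Vale.Agent.P022.H352

/-! ## The form -/

variable {a b c : ℤ} {D : ℕ}

theorem e1e2 (h : b ^ 2 - 4 * a * c = D) (v : ℤ × ℤ) :
    e1 a b D v * e2 a b D v = a * Qf a b c v := by
  have h' : (b : ℝ) ^ 2 - 4 * a * c = (D : ℝ) := by exact_mod_cast h
  have hs : Real.sqrt D ^ 2 = D := Real.sq_sqrt (Nat.cast_nonneg D)
  simp only [e1, e2, Qf]
  push_cast
  linear_combination (-(v.2 : ℝ) ^ 2 / 4) * hs + ((v.2 : ℝ) ^ 2 / 4) * h'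

theorem pos_of_ns (hns : ¬ IsSquare D) : 0 < D := by
  rcases Nat.eq_zero_or_pos D with h | h
  · exact absurd ⟨0, by simp [h]⟩ hns
  · exact h

theorem e_lower (ha : 0 < a) (hD : 0 < D) (b : ℤ) : ∃ c₀ : ℝ, 0 < c₀ ∧ ∀ v : ℤ × ℤ,
    c₀ * ((v.1 : ℝ) ^ 2 + (v.2 : ℝ) ^ 2) ≤ e1 a b D v ^ 2 + e2 a b D v ^ 2 := by
  have ha' : (0 : ℝ) < a := by exact_mod_cast ha
  have hD' : (0 : ℝ) < D := by exact_mod_cast hD
  have hs : Real.sqrt D ^ 2 = D := Real.sq_sqrt (Nat.cast_nonneg D)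
  have hK : 0 < (1 + (b : ℝ) ^ 2 / D) / (a : ℝ) ^ 2 + 2 / D := by positivity
  refine ⟨((1 + (b : ℝ) ^ 2 / D) / (a : ℝ) ^ 2 + 2 / D)⁻¹, by positivity, fun v => ?_⟩
  rw [inv_mul_le_iff₀ hK]
  set x := e1 a b D v with hx
  set y := e2 a b D v with hy
  have h1 : x - y = Real.sqrt D * v.2 := by simp only [hx, hy, e1, e2]; ring
  have h2 : (a : ℝ) * v.1 = (x + y) / 2 - b / 2 * v.2 := by simp only [hx, hy, e1, e2]; ring
  have h3 : (D : ℝ) * (v.2 : ℝ) ^ 2 = (x - y) ^ 2 := by rw [h1, mul_pow, hs]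
  have h4 : (v.2 : ℝ) ^ 2 ≤ 2 / D * (x ^ 2 + y ^ 2) := by
    rw [div_mul_eq_mul_div, le_div_iff₀ hD']
    nlinarith [sq_nonneg (x + y)]
  have h5 : (a : ℝ) ^ 2 * (v.1 : ℝ) ^ 2 ≤ (1 + (b : ℝ) ^ 2 / D) * (x ^ 2 + y ^ 2) := by
    have e : (a : ℝ) ^ 2 * (v.1 : ℝ) ^ 2 = ((x + y) / 2 - b / 2 * v.2) ^ 2 := by rw [← h2]; ring
    have e2 : ((x + y) / 2 - b / 2 * v.2) ^ 2 ≤ 2 * (((x + y) / 2) ^ 2 + (b / 2 * v.2) ^ 2) := by
      nlinarith [sq_nonneg ((x + y) / 2 + b / 2 * v.2)]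
    have e3 : (b : ℝ) ^ 2 / 2 * (v.2 : ℝ) ^ 2 ≤ (b : ℝ) ^ 2 / 2 * (2 / D * (x ^ 2 + y ^ 2)) :=
      mul_le_mul_of_nonneg_left h4 (by positivity)
    have e4 : (b : ℝ) ^ 2 / 2 * (2 / D * (x ^ 2 + y ^ 2)) = (b : ℝ) ^ 2 / D * (x ^ 2 + y ^ 2) := by
      ring
    rw [e]
    nlinarith [sq_nonneg (x - y)]
  have h6 : (v.1 : ℝ) ^ 2 ≤ (1 + (b : ℝ) ^ 2 / D) / (a : ℝ) ^ 2 * (x ^ 2 + y ^ 2) := by
    rw [div_mul_eq_mul_div, le_div_iff₀ (by positivity)]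
    linarith
  nlinarith

theorem FD_abs {u : ℝ} {s : ℤ} (hs : s = 1 ∨ s = -1) {v : ℤ × ℤ}
    (hv : v ∈ FD a b c D u s) : ((s * Qf a b c v : ℤ) : ℝ) = |(Qf a b c v : ℝ)| := by
  have h1 := hv.1
  rcases hs with rfl | rfl
  · have h2 : (0 : ℝ) < Qf a b c v := by
      have : 0 < Qf a b c v := by linarith
      exact_mod_cast this
    rw [abs_of_pos h2]
    push_cast
    ring
  · have h2 : (Qf a b c v : ℝ) < 0 := by
      have : Qf a b c v < 0 := by linarith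
      exact_mod_cast this
    rw [abs_of_neg h2]
    push_cast
    ring

theorem FD_lower (ha : 0 < a) (h : b ^ 2 - 4 * a * c = D) {u : ℝ} {s : ℤ} {v : ℤ × ℤ}
    (hv : v ∈ FD a b c D u s) :
    e1 a b D v ^ 2 + e2 a b D v ^ 2 ≤ (1 + u ^ 2) * a * |(Qf a b c v : ℝ)| := by
  obtain ⟨-, h2, h3⟩ := hv
  have ha' : (0 : ℝ) < a := by exact_mod_cast ha
  have h4 := e1e2 h v
  have h5 : |e1 a b D v| * |e2 a b D v| = a * |(Qf a b c v : ℝ)| := by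
    rw [← abs_mul, h4, abs_mul, abs_of_pos ha']
  have h6 : e1 a b D v ^ 2 ≤ u ^ 2 * (|e1 a b D v| * |e2 a b D v|) := by
    rw [← sq_abs (e1 a b D v)]
    nlinarith [abs_nonneg (e1 a b D v)]
  have h7 : e2 a b D v ^ 2 ≤ |e1 a b D v| * |e2 a b D v| := by
    rw [← sq_abs (e2 a b D v)]
    nlinarith [abs_nonneg (e2 a b D v)]
  rw [h5] at h6 h7
  linarith

theorem FD_lower' (ha : 0 < a) (hD : 0 < D) (h : b ^ 2 - 4 * a * c = D) (u : ℝ) :
    ∃ c₀ : ℝ, 0 < c₀ ∧ ∀ (s : ℤ) (v : ℤ × ℤ), v ∈ FD a b c D u s →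
      c₀ * ((v.1 : ℝ) ^ 2 + (v.2 : ℝ) ^ 2) ≤ |(Qf a b c v : ℝ)| := by
  obtain ⟨c₁, h1, hl⟩ := e_lower ha hD b
  have ha' : (0 : ℝ) < a := by exact_mod_cast ha
  have hK : 0 < (1 + u ^ 2) * (a : ℝ) := by positivity
  refine ⟨((1 + u ^ 2) * (a : ℝ))⁻¹ * c₁, by positivity, fun s v hv => ?_⟩
  rw [mul_assoc, inv_mul_le_iff₀ hK]
  exact (hl v).trans (FD_lower ha h hv)

/-! ## Convergence -/

theorem norm_hC_le (a b c : ℤ) (D : ℕ) (u : ℝ) (s : ℤ) (f : ℤ × ℤ → ℂ) (v : ℤ × ℤ) :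
    ‖hC a b c D u s f v‖ ≤ ‖f v‖ := by
  by_cases hv : v ∈ FD a b c D u s
  · rw [hC, Set.indicator_of_mem hv, norm_mul]
    have : ‖((SignType.sign (e1 a b D v) : ℤ) : ℂ)‖ ≤ 1 := by
      rcases SignType.trichotomy (SignType.sign (e1 a b D v)) with h | h | h <;> rw [h] <;> simp
    exact mul_le_of_le_one_right (norm_nonneg _) this
  · rw [hC, Set.indicator_of_notMem hv, norm_zero]
    exact norm_nonneg _

theorem good (ha : 0 < a) (hD : 0 < D) (h : b ^ 2 - 4 * a * c = D) (u : ℝ) (s : ℤ)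
    {ρ : ℚ} (hρ : 0 < ρ) {f : ℤ × ℤ → ℂ} {B : ℝ} (hB0 : 0 ≤ B) (hB : ∀ v, ‖f v‖ ≤ B) :
    H964.Good (hC a b c D u s f) (fun v => (ρ : ℝ) * |(Qf a b c v : ℝ)|) := by
  have hρ' : (0 : ℝ) < ρ := by exact_mod_cast hρ
  refine ⟨fun v => by positivity, fun A hA => ?_⟩
  obtain ⟨c₀, h0, hl⟩ := FD_lower' ha hD h u
  have h1 := H964.summable_exp_sq (c := 2 * π * A * ρ * c₀) (by positivity)
  have h2 : Summable fun x : ℤ × ℤ =>
      Real.exp (-(2 * π * A * ρ * c₀ * (x.1 : ℝ) ^ 2)) *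
        Real.exp (-(2 * π * A * ρ * c₀ * (x.2 : ℝ) ^ 2)) :=
    h1.mul_of_nonneg h1 (fun _ => (Real.exp_pos _).le) (fun _ => (Real.exp_pos _).le)
  refine Summable.of_nonneg_of_le (fun _ => by positivity) (fun v => ?_) (h2.mul_left B)
  by_cases hv : v ∈ FD a b c D u s
  · refine mul_le_mul ((norm_hC_le a b c D u s f v).trans (hB v)) ?_ (Real.exp_pos _).le hB0
    rw [← Real.exp_add]
    refine Real.exp_le_exp.2 ?_
    have h4 := mul_le_mul_of_nonneg_left (hl s v hv) (show 0 ≤ 2 * π * A * ρ by positivity)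
    linarith
  · rw [hC, Set.indicator_of_notMem hv, norm_zero, zero_mul]
    positivity

theorem hR_eq_ser (a b c : ℤ) (D : ℕ) (u : ℝ) {s : ℤ} (hs : s = 1 ∨ s = -1) (ρ : ℚ)
    (f : ℤ × ℤ → ℂ) (w : ℂ) :
    hR a b c D u s f (ρ * w) =
      H964.ser (hC a b c D u s f) (fun v => (ρ : ℝ) * |(Qf a b c v : ℝ)|) w := by
  simp only [hR, H964.ser]
  refine tsum_congr fun v => ?_
  by_cases hv : v ∈ FD a b c D u s
  · have h1 := FD_abs hs hv
    have h2 : ((s * Qf a b c v : ℤ) : ℂ) = ((|(Qf a b c v : ℝ)| : ℝ) : ℂ) := by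
      rw [← h1]; push_cast; rfl
    rw [h2]
    congr 2
    push_cast
    ring
  · rw [hC, Set.indicator_of_notMem hv, zero_mul, zero_mul]

/-- [RHOL] -/
theorem hol (ha : 0 < a) (hns : ¬ IsSquare D) (h : b ^ 2 - 4 * a * c = D) (u : ℝ) {s : ℤ}
    (hs : s = 1 ∨ s = -1) {m : ℕ} (hm : 0 < m) {f : ℤ × ℤ → ℂ} (hf : Per m f) :
    DifferentiableOn ℂ (hR a b c D u s f) {w : ℂ | 0 < w.im} := by
  obtain ⟨B, hB0, hB⟩ := H964.per_bounded hm hf
  refine (H964.differentiableOn_ser (good ha (pos_of_ns hns) h u s one_pos hB0 hB)).congr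
    fun z _ => ?_
  rw [← hR_eq_ser a b c D u hs]
  simp

theorem summable_hR (ha : 0 < a) (hns : ¬ IsSquare D) (h : b ^ 2 - 4 * a * c = D) (u : ℝ) {s : ℤ}
    (hs : s = 1 ∨ s = -1) {m : ℕ} (hm : 0 < m) {f : ℤ × ℤ → ℂ} (hf : Per m f) {w : ℂ}
    (hw : 0 < w.im) :
    Summable fun v => hC a b c D u s f v * cexp (2 * π * I * ((s * Qf a b c v : ℤ) : ℂ) * w) := by
  obtain ⟨B, hB0, hB⟩ := H964.per_bounded hm hf
  refine (H964.summable_term (good ha (pos_of_ns hns) h u s one_pos hB0 hB) hw).congr fun v => ?_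
  by_cases hv : v ∈ FD a b c D u s
  · have h1 := FD_abs hs hv
    have h2 : ((s * Qf a b c v : ℤ) : ℂ) = ((|(Qf a b c v : ℝ)| : ℝ) : ℂ) := by
      rw [← h1]; push_cast; rfl
    rw [h2]
    congr 2
    push_cast
    ring
  · rw [hC, Set.indicator_of_notMem hv, zero_mul, zero_mul]

/-- Hecke's theta series as a function on the upper half plane. -/
def HR (a b c : ℤ) (D : ℕ) (u : ℝ) (s : ℤ) (ρ : ℚ) (f : ℤ × ℤ → ℂ) (τ : ℍ) : ℂ :=
  hR a b c D u s f (ρ * τ)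

theorem HR_eq (a b c : ℤ) (D : ℕ) (u : ℝ) {s : ℤ} (hs : s = 1 ∨ s = -1) (ρ : ℚ)
    (f : ℤ × ℤ → ℂ) :
    HR a b c D u s ρ f =
      H964.serH (hC a b c D u s f) (fun v => (ρ : ℝ) * |(Qf a b c v : ℝ)|) := by
  funext τ
  exact hR_eq_ser a b c D u hs ρ f τ

theorem mdiff_HR (ha : 0 < a) (hns : ¬ IsSquare D) (h : b ^ 2 - 4 * a * c = D) (u : ℝ) {s : ℤ}
    (hs : s = 1 ∨ s = -1) {ρ : ℚ} (hρ : 0 < ρ) {q : ℕ} (hq : 0 < q) {f : ℤ × ℤ → ℂ}
    (hf : Per q f) : MDifferentiable 𝓘(ℂ) 𝓘(ℂ) (HR a b c D u s ρ f) := by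
  obtain ⟨B, hB0, hB⟩ := H964.per_bounded hq hf
  rw [HR_eq a b c D u hs]
  exact H964.mdiff (good ha (pos_of_ns hns) h u s hρ hB0 hB)

theorem bdd_HR (ha : 0 < a) (hns : ¬ IsSquare D) (h : b ^ 2 - 4 * a * c = D) (u : ℝ) {s : ℤ}
    (hs : s = 1 ∨ s = -1) {ρ : ℚ} (hρ : 0 < ρ) {q : ℕ} (hq : 0 < q) {f : ℤ × ℤ → ℂ}
    (hf : Per q f) : IsBoundedAtImInfty (HR a b c D u s ρ f) := by
  obtain ⟨B, hB0, hB⟩ := H964.per_bounded hq hf
  rw [HR_eq a b c D u hs]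
  exact H964.bdd (good ha (pos_of_ns hns) h u s hρ hB0 hB)

/-! ## The unit -/

theorem Qf_unit (ha : 0 < a) (h : b ^ 2 - 4 * a * c = D) {u : ℝ} {A : (ℤ × ℤ) ≃+ (ℤ × ℤ)}
    (hA : Unt a b D u A) (v : ℤ × ℤ) : Qf a b c (A v) = Qf a b c v := by
  have ha' : (a : ℝ) ≠ 0 := by exact_mod_cast ha.ne'
  have hu : u ≠ 0 := (zero_lt_one.trans hA.one_lt).ne'
  have h1 := e1e2 h (A v)
  rw [hA.h1, hA.h2] at h1
  have h2 := e1e2 h v
  have h3 : (a : ℝ) * Qf a b c (A v) = a * Qf a b c v := by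
    rw [← h1, ← h2]
    field_simp
  exact_mod_cast mul_left_cancel₀ ha' h3

/-- the symplectic form -/
def sy (v w : ℤ × ℤ) : ℤ := v.1 * w.2 - v.2 * w.1

theorem sy_eq (a b : ℤ) (D : ℕ) (v w : ℤ × ℤ) :
    (a : ℝ) * Real.sqrt D * sy v w =
      -(e1 a b D v * e2 a b D w - e2 a b D v * e1 a b D w) := by
  simp only [e1, e2, sy]
  push_cast
  ring

theorem sy_unit (ha : 0 < a) (hD : 0 < D) {u : ℝ} {A : (ℤ × ℤ) ≃+ (ℤ × ℤ)}
    (hA : Unt a b D u A) (v w : ℤ × ℤ) : sy (A v) (A w) = sy v w := by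
  have ha' : (a : ℝ) ≠ 0 := by exact_mod_cast ha.ne'
  have hs : Real.sqrt D ≠ 0 := (Real.sqrt_pos.2 (by exact_mod_cast hD)).ne'
  have hu : u ≠ 0 := (zero_lt_one.trans hA.one_lt).ne'
  have h1 := sy_eq a b D (A v) (A w)
  rw [hA.h1, hA.h2, hA.h1, hA.h2] at h1
  have h2 := sy_eq a b D v w
  have h3 : (a : ℝ) * Real.sqrt D * sy (A v) (A w) = a * Real.sqrt D * sy v w := by
    rw [h1, h2]
    field_simp
  exact_mod_cast mul_left_cancel₀ (mul_ne_zero ha' hs) h3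

/-! ### residues -/

section residues

variable {M : ℕ}

/-- reduction modulo `M` -/
def red (hM : 0 < M) (v : ℤ × ℤ) : Fin M × Fin M :=
  (⟨(v.1 % M).toNat, by
      have h1 : (0 : ℤ) < M := by exact_mod_cast hM
      have h2 := Int.emod_nonneg v.1 h1.ne'
      have h3 := Int.emod_lt_of_pos v.1 h1
      omega⟩,
    ⟨(v.2 % M).toNat, by
      have h1 : (0 : ℤ) < M := by exact_mod_cast hM
      have h2 := Int.emod_nonneg v.2 h1.ne'
      have h3 := Int.emod_lt_of_pos v.2 h1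
      omega⟩)

/-- the representative -/
def lft (x : Fin M × Fin M) : ℤ × ℤ := ((x.1.1 : ℤ), (x.2.1 : ℤ))

theorem lft_red (hM : 0 < M) (v : ℤ × ℤ) : ∃ z : ℤ × ℤ, lft (red hM v) = v + (M : ℤ) • z := by
  have h1 : (0 : ℤ) < M := by exact_mod_cast hM
  refine ⟨(-(v.1 / M), -(v.2 / M)), ?_⟩
  have h2 := Int.emod_nonneg v.1 h1.ne'
  have h3 := Int.emod_nonneg v.2 h1.ne'
  have h4 := Int.emod_add_mul_ediv v.1 M
  have h5 := Int.emod_add_mul_ediv v.2 M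
  ext
  · simp only [lft, red, Prod.fst_add, Prod.smul_fst, smul_eq_mul]
    rw [Int.toNat_of_nonneg h2]
    linarith
  · simp only [lft, red, Prod.snd_add, Prod.smul_snd, smul_eq_mul]
    rw [Int.toNat_of_nonneg h3]
    linarith

theorem red_add (hM : 0 < M) (v z : ℤ × ℤ) : red hM (v + (M : ℤ) • z) = red hM v := by
  simp [red]

theorem red_lft (hM : 0 < M) (x : Fin M × Fin M) : red hM (lft x) = x := by
  have h1 := x.1.2
  have h2 := x.2.2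
  ext
  · simp only [red, lft]
    rw [Int.emod_eq_of_lt (by omega) (by omega)]
    simp
  · simp only [red, lft]
    rw [Int.emod_eq_of_lt (by omega) (by omega)]
    simp

/-- the permutation of the residues -/
def perm (hM : 0 < M) (A : (ℤ × ℤ) ≃+ (ℤ × ℤ)) : Equiv.Perm (Fin M × Fin M) where
  toFun x := red hM (A (lft x))
  invFun x := red hM (A.symm (lft x))
  left_inv x := by
    obtain ⟨z, hz⟩ := lft_red hM (A (lft x))
    change red hM (A.symm (lft (red hM (A (lft x))))) = x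
    rw [hz, map_add, map_zsmul, AddEquiv.symm_apply_apply, red_add, red_lft]
  right_inv x := by
    obtain ⟨z, hz⟩ := lft_red hM (A.symm (lft x))
    change red hM (A (lft (red hM (A.symm (lft x))))) = x
    rw [hz, map_add, map_zsmul, AddEquiv.apply_symm_apply, red_add, red_lft]

theorem sum_unit (hM : 0 < M) (A : (ℤ × ℤ) ≃+ (ℤ × ℤ)) {P : ℤ × ℤ → ℂ} (hP : Per M P) :
    ∑ i : Fin M, ∑ j : Fin M, P (A ((i.1 : ℤ), (j.1 : ℤ))) =
      ∑ i : Fin M, ∑ j : Fin M, P ((i.1 : ℤ), (j.1 : ℤ)) := by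
  rw [← Fintype.sum_prod_type' (f := fun i j : Fin M => P (A ((i.1 : ℤ), (j.1 : ℤ)))),
    ← Fintype.sum_prod_type' (f := fun i j : Fin M => P ((i.1 : ℤ), (j.1 : ℤ)))]
  refine Fintype.sum_equiv (perm hM A) _ _ fun x => ?_
  obtain ⟨z, hz⟩ := lft_red hM (A (lft x))
  have h1 : (((perm hM A x).1.1 : ℤ), ((perm hM A x).2.1 : ℤ)) = A (lft x) + (M : ℤ) • z := hz
  rw [h1, hP]
  rfl

end residues

theorem per_kernel {M : ℕ} (hM : 0 < M) {f : ℤ × ℤ → ℂ} (hf : Per M f) (v : ℤ × ℤ) :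
    Per M fun w => f w * cexp (2 * π * I * ((sy v w : ℤ) : ℂ) / M) := by
  intro w z
  have hM' : (M : ℂ) ≠ 0 := by exact_mod_cast hM.ne'
  simp only [hf w z]
  congr 1
  have h4 : (2 * π * I * ((sy v (w + (M : ℤ) • z) : ℤ) : ℂ) / M) =
      2 * π * I * ((sy v w : ℤ) : ℂ) / M + ((sy v z : ℤ) : ℂ) * (2 * π * I) := by
    simp only [sy, Prod.fst_add, Prod.snd_add, Prod.smul_fst, Prod.smul_snd, smul_eq_mul]
    push_cast
    field_simp
    ring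
  rw [h4, Complex.exp_add, Complex.exp_int_mul_two_pi_mul_I, mul_one]

/-- the finite Fourier transform of an invariant function is invariant -/
theorem hatF_unit (ha : 0 < a) (hD : 0 < D) {u : ℝ} {A : (ℤ × ℤ) ≃+ (ℤ × ℤ)}
    (hA : Unt a b D u A) {M : ℕ} (hM : 0 < M) {f : ℤ × ℤ → ℂ} (hf : Per M f)
    (hfA : ∀ v, f (A v) = f v) (v : ℤ × ℤ) : hatF M f (A v) = hatF M f v := by
  have h1 := sum_unit hM A (per_kernel hM hf (A v))
  simp only [hfA, sy_unit ha hD hA] at h1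
  simp only [hatF]
  exact h1.symm

/-! ## The laws under `T` and `S` -/

theorem hR_add (a b c : ℤ) (D : ℕ) (u : ℝ) {s : ℤ} (ρ : ℚ) (f : ℤ × ℤ → ℂ) (k : ℤ) (τ : ℂ) :
    hR a b c D u s f (ρ * (k + τ)) =
      hR a b c D u s (H964.mulE a b c ρ f (s * k)) (ρ * τ) := by
  simp only [hR]
  refine tsum_congr fun v => ?_
  by_cases hv : v ∈ FD a b c D u s
  · rw [hC, hC, Set.indicator_of_mem hv, Set.indicator_of_mem hv, H964.mulE,
      show (2 * π * I * ((s * Qf a b c v : ℤ) : ℂ) * (ρ * (k + τ)) : ℂ) =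
        2 * π * I * ((s * k : ℤ) : ℂ) * (ρ * Qf a b c v) +
          2 * π * I * ((s * Qf a b c v : ℤ) : ℂ) * (ρ * τ) by push_cast; ring, Complex.exp_add]
    ring
  · rw [hC, hC, Set.indicator_of_notMem hv, Set.indicator_of_notMem hv, zero_mul, zero_mul]

theorem mulE_unit (ha : 0 < a) (h : b ^ 2 - 4 * a * c = D) {u : ℝ} {A : (ℤ × ℤ) ≃+ (ℤ × ℤ)}
    (hA : Unt a b D u A) (ρ : ℚ) {f : ℤ × ℤ → ℂ} (hfA : ∀ v, f (A v) = f v) (k : ℤ) (v : ℤ × ℤ) :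
    H964.mulE a b c ρ f k (A v) = H964.mulE a b c ρ f k v := by
  simp only [H964.mulE, hfA, Qf_unit ha h hA]

theorem V_T (ha : 0 < a) (h : b ^ 2 - 4 * a * c = D) {u : ℝ} {A : (ℤ × ℤ) ≃+ (ℤ × ℤ)}
    (hA : Unt a b D u A) {F : ℍ → ℂ} (hF : F ∈ V a b c D u A) (k : ℤ) :
    F ∣[(1 : ℤ)] (ModularGroup.T ^ k) ∈ V a b c D u A := by
  obtain ⟨C, ρ, s, f, q, hρ, hs, hq, hf, hfA, hF⟩ := hF
  refine ⟨C, ρ, s, H964.mulE a b c ρ f (s * k), q * ρ.den, hρ, hs, Nat.mul_pos hq ρ.den_pos,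
    H964.per_mulE a b c ρ hf (s * k), mulE_unit ha h hA ρ hfA _, ?_⟩
  intro τ
  have h1 : (F ∣[(1 : ℤ)] (ModularGroup.T ^ k)) τ = F ((k : ℝ) +ᵥ τ) := by
    have h2 : denom (ModularGroup.T ^ k : SL(2, ℤ)) τ = 1 := by
      rw [ModularGroup.denom_apply, ModularGroup.coe_T_zpow]
      simp
    rw [ModularForm.SL_slash_apply, UpperHalfPlane.modular_T_zpow_smul, h2, one_zpow, mul_one]
  rw [h1, hF]
  rw [← hR_add]
  simp

/-- [S-law] -/
theorem S_law (hP : RPOStmt) (hU : RUNFStmt) (ha : 0 < a) (hns : ¬ IsSquare D)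
    (h : b ^ 2 - 4 * a * c = D) {u : ℝ} {A : (ℤ × ℤ) ≃+ (ℤ × ℤ)} (hA : Unt a b D u A)
    {M : ℕ} (hM : 0 < M) {f : ℤ × ℤ → ℂ} (hf : Per M f) (hfA : ∀ v, f (A v) = f v)
    {w : ℂ} (hw : 0 < w.im) {s : ℤ} (hs : s = 1 ∨ s = -1) :
    hR a b c D u s f w = -s / ((Real.sqrt D : ℂ) * M ^ 2 * w) *
      hR a b c D u (-s) (hatF M f) (-1 / (D * M ^ 2 * w)) := by
  have hD := pos_of_ns hns
  have hD' : (0 : ℝ) < D := by exact_mod_cast hD
  have hM' : (0 : ℝ) < M := by exact_mod_cast hM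
  have hw0 : w ≠ 0 := by rintro rfl; simp at hw
  have hw1 : 0 < ‖w‖ := norm_pos_iff.2 hw0
  set w' : ℂ := -1 / (D * M ^ 2 * w) with hw'
  have him : w'.im = w.im / (D * M ^ 2 * ‖w‖ ^ 2) := by
    have e : w' = ((-(1 / (D * M ^ 2)) : ℝ) : ℂ) * w⁻¹ := by
      rw [hw']
      push_cast
      field_simp
    rw [e, Complex.im_ofReal_mul, Complex.inv_im, Complex.normSq_eq_norm_sq]
    field_simp
  have him0 : 0 < w'.im := by rw [him]; positivity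
  have hsq : √w'.im = √w.im / (√D * M * ‖w‖) := by
    rw [him, Real.sqrt_div hw.le, Real.sqrt_mul (by positivity), Real.sqrt_mul hD'.le,
      Real.sqrt_sq hM'.le, Real.sqrt_sq hw1.le]
  have hy : (√w.im : ℝ) ≠ 0 := (Real.sqrt_pos.2 hw).ne'
  have hyC : ((√w.im : ℝ) : ℂ) ≠ 0 := by exact_mod_cast hy
  have hfh := hatF_unit ha hD hA hM hf hfA
  have hph := H964.per_hatF M hM f
  obtain ⟨u1, u2⟩ := hU a b c D ha hns h u A hA M hM f hf hfA w hw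
  obtain ⟨v1, v2⟩ := hU a b c D ha hns h u A hA M hM (hatF M f) hph hfh w' him0
  have hsD : ((√(D : ℝ) : ℝ) : ℂ) ≠ 0 := by
    have : √(D : ℝ) ≠ 0 := (Real.sqrt_pos.2 hD').ne'
    exact_mod_cast this
  have hsD2 : ((√(D : ℝ) : ℝ) : ℂ) ^ 2 = D := by
    have : √(D : ℝ) ^ 2 = D := Real.sq_sqrt hD'.le
    exact_mod_cast this
  have hMC : (M : ℂ) ≠ 0 := by exact_mod_cast hM.ne'
  have hnC : ((‖w‖ : ℝ) : ℂ) ≠ 0 := by exact_mod_cast hw1.ne'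
  have hDC : (D : ℂ) ≠ 0 := by exact_mod_cast hD.ne'
  rcases hs with rfl | rfl
  · have e1 : (∫ t in (0 : ℝ)..Real.log u, Tp a b D (Real.exp t) f w) =
        -(1 / (D * M ^ 3 * w * ‖w‖)) *
          ∫ t in (0 : ℝ)..Real.log u, Tm a b D (Real.exp t) (hatF M f) w' := by
      rw [← intervalIntegral.integral_const_mul]
      refine intervalIntegral.integral_congr fun t _ => ?_
      exact (hP a b c D ha hD h M hM f hf _ (Real.exp_pos t) w hw).1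
    rw [u1, v2, hsq] at e1
    rw [div_eq_iff (mul_ne_zero two_ne_zero hyC)] at e1
    rw [e1]
    push_cast
    field_simp
    rw [hsD2]
    ring
  · have e1 : (∫ t in (0 : ℝ)..Real.log u, Tm a b D (Real.exp t) f w) =
        (1 / (D * M ^ 3 * w * ‖w‖)) *
          ∫ t in (0 : ℝ)..Real.log u, Tp a b D (Real.exp t) (hatF M f) w' := by
      rw [← intervalIntegral.integral_const_mul]
      refine intervalIntegral.integral_congr fun t _ => ?_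
      exact (hP a b c D ha hD h M hM f hf _ (Real.exp_pos t) w hw).2
    rw [u2, v1, hsq] at e1
    rw [div_eq_iff (mul_ne_zero two_ne_zero hyC)] at e1
    rw [e1]
    push_cast
    field_simp
    rw [hsD2]
    ring

theorem neg_cases {s : ℤ} (hs : s = 1 ∨ s = -1) : -s = 1 ∨ -s = -1 := by omega

theorem V_S (hP : RPOStmt) (hU : RUNFStmt) (ha : 0 < a) (hns : ¬ IsSquare D)
    (h : b ^ 2 - 4 * a * c = D) {u : ℝ} {A : (ℤ × ℤ) ≃+ (ℤ × ℤ)} (hA : Unt a b D u A)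
    {F : ℍ → ℂ} (hF : F ∈ V a b c D u A) :
    F ∣[(1 : ℤ)] ModularGroup.S ∈ V a b c D u A := by
  obtain ⟨C, ρ, s, f, q, hρ, hs, hq, hf, hfA, hF⟩ := hF
  have hD := pos_of_ns hns
  refine ⟨C * (s / ((Real.sqrt D : ℂ) * q ^ 2 * ρ)), 1 / (D * q ^ 2 * ρ), -s, hatF q f, q,
    by positivity, neg_cases hs, hq, H964.per_hatF q hq f, hatF_unit ha hD hA hq hf hfA, ?_⟩
  intro τ
  rw [SlashInvariantForm.slash_S_apply, hF]
  have hτ : (τ : ℂ) ≠ 0 := τ.ne_zero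
  have hρ' : (ρ : ℂ) ≠ 0 := by exact_mod_cast hρ.ne'
  have hD' : (D : ℂ) ≠ 0 := by exact_mod_cast hD.ne'
  have hq' : (q : ℂ) ≠ 0 := by exact_mod_cast hq.ne'
  have hs' : ((Real.sqrt D : ℝ) : ℂ) ≠ 0 := by
    have : Real.sqrt D ≠ 0 := (Real.sqrt_pos.2 (by exact_mod_cast hD)).ne'
    exact_mod_cast this
  have h3 : 0 < ((ρ : ℂ) * (-(τ : ℂ))⁻¹).im := by
    have h4 : ((ρ : ℂ) * (-(τ : ℂ))⁻¹).im = ρ * (-(τ : ℂ))⁻¹.im := by
      have : (ρ : ℂ) = ((ρ : ℝ) : ℂ) := by push_cast; rfl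
      rw [this, Complex.im_ofReal_mul]
    rw [h4]
    exact mul_pos (by exact_mod_cast hρ) τ.im_inv_neg_coe_pos
  have h5 := S_law hP hU ha hns h hA hq hf hfA h3 hs
  have h6 : (-1 / ((D : ℂ) * q ^ 2 * (ρ * (-(τ : ℂ))⁻¹))) =
      ((1 / (D * q ^ 2 * ρ) : ℚ) : ℂ) * τ := by
    push_cast
    field_simp
  rw [h6] at h5
  rw [h5, zpow_neg, zpow_one]
  field_simp

theorem bdd_all (hP : RPOStmt) (hU : RUNFStmt) (ha : 0 < a) (hns : ¬ IsSquare D)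
    (h : b ^ 2 - 4 * a * c = D) {u : ℝ} {A : (ℤ × ℤ) ≃+ (ℤ × ℤ)} (hA : Unt a b D u A)
    {F : ℍ → ℂ} (hF : F ∈ V a b c D u A) (γ : SL(2, ℤ)) :
    IsBoundedAtImInfty (F ∣[(1 : ℤ)] γ) := by
  have h1 : F ∣[(1 : ℤ)] γ ∈ V a b c D u A := by
    refine H964.stable (k := (1 : ℤ)) (V := V a b c D u A)
      (fun f hf => V_S hP hU ha hns h hA hf) (fun f hf => ?_) (fun f hf => ?_) γ F hF
    · simpa using V_T ha h hA hf 1
    · simpa using V_T ha h hA hf (-1)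
  obtain ⟨C, ρ, s, f, q, hρ, hs, hq, hf, hfA, h'⟩ := h1
  have h2 : (F ∣[(1 : ℤ)] γ) = C • HR a b c D u s ρ f := by
    funext τ; rw [h']; rfl
  rw [h2]
  have h3 : IsBoundedAtImInfty (HR a b c D u s ρ f) := bdd_HR ha hns h u hs hρ hq hf
  exact Filter.BoundedAtFilter.smul C h3

end Vale.Agent.P022.H477
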