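import Vale.Agent.P022.H477.CfD

/-!
P022-CFT, block [D]: the crossing congruence, number field form.
-/

open Finset IsDedekindDomain
open scoped NumberField WithZero

namespace Vale.Agent.P022.H477.CF

section field

variable {K M : Type*} [Field K] [Field M] [Algebra K M]

/-- the multiplicative automorphism of `Mˣ` -/
def ua (σ : M ≃ₐ[K] M) : MulAut Mˣ := Units.mapEquiv (σ : M ≃* M)

@[simp] theorem ua_coe (σ : M ≃ₐ[K] M) (x : Mˣ) : ((ua σ x : Mˣ) : M) = σ x := rfl

theorem ua_mul (σ τ : M ≃ₐ[K] M) : ua (σ * τ) = ua σ * ua τ := rfl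

theorem ua_pow (σ : M ≃ₐ[K] M) (k : ℕ) : ua (σ ^ k) = ua σ ^ k := by
  induction k with
  | zero => rfl
  | succ k ih => rw [pow_succ, pow_succ, ua_mul, ih]

/-- **[D], field form.** `w` a valuation of `M` with values in `ℤᵐ⁰`, invariant under
`σ ^ a τ ^ b`. -/
theorem crossing_field {σ τ : M ≃ₐ[K] M} (hστ : Commute σ τ) {n N a b : ℕ} {y z : M}
    (hy : y ≠ 0) (hz : z ≠ 0) (hyz : τ y / y = σ z / z) {α β : K}
    (hα : ∏ i ∈ range n, (σ ^ i) y = algebraMap K M α)
    (hβ : ∏ j ∈ range N, (τ ^ j) z = algebraMap K M β)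
    (w : Valuation M ℤᵐ⁰) (hw : ∀ x, w ((σ ^ a * τ ^ b) x) = w x) :
    ((n * N : ℕ) : ℤ) ∣ N * a * WithZero.log (w (algebraMap K M α)) +
      n * b * WithZero.log (w (algebraMap K M β)) := by
  set Y : Mˣ := Units.mk0 y hy with hY
  set Z : Mˣ := Units.mk0 z hz with hZ
  have hst : Commute (ua σ) (ua τ) := by
    change ua σ * ua τ = ua τ * ua σ
    rw [← ua_mul, hστ.eq, ua_mul]
  let u : Mˣ →* Multiplicative ℤ :=
    { toFun := fun x => Multiplicative.ofAdd (WithZero.log (w x))
      map_one' := by simp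
      map_mul' := fun x y => by
        rw [Units.val_mul, map_mul, WithZero.log_mul, ofAdd_add]
        · exact (Valuation.ne_zero_iff _).2 x.ne_zero
        · exact (Valuation.ne_zero_iff _).2 y.ne_zero }
  have hnY : ((nm (ua σ) n Y : Mˣ) : M) = algebraMap K M α := by
    rw [nm, Units.coe_prod, ← hα]
    refine prod_congr rfl fun k _ => ?_
    rw [← ua_pow, ua_coe]
    rfl
  have hnZ : ((nm (ua τ) N Z : Mˣ) : M) = algebraMap K M β := by
    rw [nm, Units.coe_prod, ← hβ]
    refine prod_congr rfl fun k _ => ?_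
    rw [← ua_pow, ua_coe]
    rfl
  have h := crossing (s := ua σ) (t := ua τ) hst (n := n) (N := N) (a := a) (b := b)
    (y := Y) (z := Z) ?_ u ?_ ?_ ?_ ?_ ?_
  · change ((n * N : ℕ) : ℤ) ∣ N * a * WithZero.log (w (nm (ua σ) n Y : Mˣ)) +
      n * b * WithZero.log (w (nm (ua τ) N Z : Mˣ)) at h
    rwa [hnY, hnZ] at h
  · ext
    rw [Units.val_div_eq_div_val, Units.val_div_eq_div_val, ua_coe, ua_coe]
    exact hyz
  · intro x
    change Multiplicative.ofAdd (WithZero.log (w _)) = Multiplicative.ofAdd (WithZero.log (w _))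
    rw [← ua_pow, ← ua_pow, ← ua_mul, ua_coe, hw]
  · ext; rw [ua_coe, hnY, AlgEquiv.commutes]
  · ext; rw [ua_coe, hnY, AlgEquiv.commutes]
  · ext; rw [ua_coe, hnZ, AlgEquiv.commutes]
  · ext; rw [ua_coe, hnZ, AlgEquiv.commutes]

end field

section numberField

variable {K M : Type*} [Field K] [NumberField K] [Field M] [NumberField M] [Algebra K M]

/-- the action on the ring of integers -/
def oi (g : M ≃ₐ[K] M) : 𝓞 M →+* 𝓞 M := NumberField.RingOfIntegers.mapRingHom (g : M ≃ₐ[K] M)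

omit [NumberField K] [NumberField M] in
theorem oi_coe (g : M ≃ₐ[K] M) (x : 𝓞 M) : ((oi g x : 𝓞 M) : M) = g x := rfl

omit [NumberField K] in
theorem intVal_le (w : HeightOneSpectrum (𝓞 M)) (g : M ≃ₐ[K] M)
    (hg : ∀ x y : 𝓞 M, (y : M) = g x → x ∈ w.asIdeal → y ∈ w.asIdeal) (x : 𝓞 M) :
    w.intValuation (oi g x) ≤ w.intValuation x := by
  rcases eq_or_ne x 0 with rfl | hx
  · simp
  rw [w.intValuation_if_neg hx]
  rw [HeightOneSpectrum.intValuation_le_pow_iff_mem]
  have h1 : x ∈ w.asIdeal ^ ((Associates.mk w.asIdeal).count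
      (Associates.mk (Ideal.span {x} : Ideal (𝓞 M))).factors) := by
    rw [← HeightOneSpectrum.intValuation_le_pow_iff_mem, w.intValuation_if_neg hx]
  have h2 : Ideal.map (oi g) w.asIdeal ≤ w.asIdeal := by
    rw [Ideal.map_le_iff_le_comap]
    intro y hy
    exact hg y (oi g y) (oi_coe g y) hy
  have h3 := Ideal.mem_map_of_mem (oi g) h1
  rw [Ideal.map_pow] at h3
  exact Ideal.pow_right_mono h2 _ h3

/-- an automorphism that maps the prime `w` into itself preserves the valuation -/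
theorem val_stab (w : HeightOneSpectrum (𝓞 M)) (g : M ≃ₐ[K] M)
    (hg : ∀ x y : 𝓞 M, (y : M) = g x → x ∈ w.asIdeal → y ∈ w.asIdeal) (x : M) :
    w.valuation M (g x) = w.valuation M x := by
  have hfin : Module.Finite K M := Module.Finite.of_restrictScalars_finite ℚ K M
  have h1 : ∀ x : 𝓞 M, w.intValuation (oi g x) = w.intValuation x := by
    intro x
    refine le_antisymm (intVal_le w g hg x) ?_
    obtain ⟨k, hk, hgk⟩ := (isOfFinOrder_of_finite g).exists_pow_eq_one
    have h2 : ∀ j : ℕ, ∀ y : 𝓞 M, (y : M) = (g ^ (j + 1)) x →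
        w.intValuation y ≤ w.intValuation (oi g x) := by
      intro j
      induction j with
      | zero =>
        intro y hy
        have : y = oi g x := by
          ext; rw [hy, oi_coe, zero_add, pow_one]
        rw [this]
      | succ j ih =>
        intro y hy
        have h4 : y = oi g (oi (g ^ (j + 1)) x) := by
          ext
          rw [hy, oi_coe, oi_coe, pow_succ' g (j + 1)]
          rfl
        rw [h4]
        exact (intVal_le w g hg _).trans (ih _ (oi_coe _ _))
    obtain ⟨j, rfl⟩ : ∃ j, k = j + 1 := ⟨k - 1, by omega⟩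
    exact h2 j x (by rw [hgk]; rfl)
  obtain ⟨a, b, hb, rfl⟩ := IsFractionRing.div_surjective (A := 𝓞 M) x
  have h2 : ∀ c : 𝓞 M, w.valuation M (g (algebraMap (𝓞 M) M c)) =
      w.valuation M (algebraMap (𝓞 M) M c) := by
    intro c
    have : g (algebraMap (𝓞 M) M c) = algebraMap (𝓞 M) M (oi g c) := rfl
    rw [this, HeightOneSpectrum.valuation_of_algebraMap, HeightOneSpectrum.valuation_of_algebraMap,
      h1]
  rw [map_div₀, map_div₀, map_div₀, h2, h2]

/-- **[D].** `M / K` number fields, `σ, τ` commuting automorphisms of `M / K`, `w ∣ v`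
unramified, `σ ^ a τ ^ b` maps `w` into itself. -/
theorem crossing_numberField {σ τ : M ≃ₐ[K] M} (hστ : Commute σ τ) {n N a b : ℕ} {y z : M}
    (hy : y ≠ 0) (hz : z ≠ 0) (hyz : τ y / y = σ z / z) {α β : K}
    (hα : ∏ i ∈ range n, (σ ^ i) y = algebraMap K M α)
    (hβ : ∏ j ∈ range N, (τ ^ j) z = algebraMap K M β)
    (v : HeightOneSpectrum (𝓞 K)) (w : HeightOneSpectrum (𝓞 M)) [w.asIdeal.LiesOver v.asIdeal]
    (hram : v.asIdeal.ramificationIdx' w.asIdeal = 1)
    (hg : ∀ x y : 𝓞 M, (y : M) = (σ ^ a * τ ^ b) x → x ∈ w.asIdeal → y ∈ w.asIdeal) :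
    ((n * N : ℕ) : ℤ) ∣ N * a * WithZero.log (v.valuation K α) +
      n * b * WithZero.log (v.valuation K β) := by
  have h1 : ∀ x : K, v.valuation K x = w.valuation M (algebraMap K M x) := by
    intro x
    have := HeightOneSpectrum.valuation_liesOver M v w x
    rwa [hram, pow_one] at this
  rw [h1, h1]
  exact crossing_field hστ hy hz hyz hα hβ _ (val_stab w _ hg)

omit [NumberField K] [NumberField M] in
/-- a Frobenius element at `w` maps `w` into itself -/
theorem stab_of_frob (w : HeightOneSpectrum (𝓞 M)) (g : M ≃ₐ[K] M) {q : ℕ} (hq : q ≠ 0)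
    (hg : ∀ x y : 𝓞 M, (y : M) = g x → y - x ^ q ∈ w.asIdeal) :
    ∀ x y : 𝓞 M, (y : M) = g x → x ∈ w.asIdeal → y ∈ w.asIdeal := by
  intro x y hy hx
  have h1 := hg x y hy
  have h2 : x ^ q ∈ w.asIdeal := Ideal.pow_mem_of_mem _ hx q (Nat.pos_of_ne_zero hq)
  have h3 := w.asIdeal.add_mem h1 h2
  simpa using h3

end numberField

end Vale.Agent.P022.H477.CF
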