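import Vale.Agent.P022.H567.Cft
import Vale.Agent.P022.H477.CfD2

/-!
P022-CFT, blocks [DIV] and [VALX] in the letters of `H567/Cft.lean`.
-/

open Finset IsDedekindDomain
open scoped NumberField WithZero

namespace Vale.Agent.P022.H477.CF

open Vale.Agent.P022.C

/-- [DIV] -/
theorem DIV : DIVStmt := by
  intro n n' a b _ _ f g A B h hA hB hf hg
  have := potential (p := f) (q := g) (n := n) (N := n') (a := a) (b := b) h hA hB hf hg
  push_cast at this
  obtain ⟨k, hk⟩ := this
  exact ⟨k, by linarith⟩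

/-- the two automorphisms commute -/
theorem cross_comm {K L L' E : Type} [Field K] [Field L] [Field L'] [Field E]
    [Algebra K L] [Algebra K L'] [Algebra K E] [Algebra L E] [Algebra L' E]
    [IsScalarTower K L E] [IsScalarTower K L' E] {n n' : ℕ} {σ : L ≃ₐ[K] L}
    {σ' : L' ≃ₐ[K] L'} {s s' : E ≃ₐ[K] E} (h : Cross K n n' σ σ' s s') : Commute s s' := by
  have h1 : (s' * s)⁻¹ * (s * s') = 1 := by
    refine h.ext _ (fun x => ?_) (fun x => ?_)
    · have e1 : (s * s') (algebraMap L E x) = algebraMap L E (σ x) := by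
        rw [AlgEquiv.mul_apply, h.s'L, h.sL]
      have e2 : (s' * s) (algebraMap L E x) = algebraMap L E (σ x) := by
        rw [AlgEquiv.mul_apply, h.sL, h.s'L]
      rw [AlgEquiv.mul_apply, e1, ← e2]
      exact AlgEquiv.symm_apply_apply (s' * s) _
    · have e1 : (s * s') (algebraMap L' E x) = algebraMap L' E (σ' x) := by
        rw [AlgEquiv.mul_apply, h.s'L', h.sL']
      have e2 : (s' * s) (algebraMap L' E x) = algebraMap L' E (σ' x) := by
        rw [AlgEquiv.mul_apply, h.sL', h.s'L']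
      rw [AlgEquiv.mul_apply, e1, ← e2]
      exact AlgEquiv.symm_apply_apply (s' * s) _
  exact (inv_mul_eq_one.1 h1).symm

/-- the product over an orbit vanishes only if the element does -/
theorem ne_zero_of_prod {K E : Type} [Field K] [Field E] [Algebra K E] {s : E ≃ₐ[K] E} {n : ℕ}
    (hn : 0 < n) {γ : E} {x : K} (hx : x ≠ 0)
    (h : ∏ i ∈ range n, (s ^ i) γ = algebraMap K E x) : γ ≠ 0 := by
  rintro rfl
  have h1 : ∏ i ∈ range n, (s ^ i) (0 : E) = 0 :=
    prod_eq_zero (mem_range.2 hn) (map_zero _)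
  rw [h1] at h
  exact hx ((map_eq_zero_iff _ (algebraMap K E).injective).1 h.symm)

/-- a Frobenius element preserves the valuation -/
theorem val_frob {K M : Type} [Field K] [NumberField K] [Field M] [NumberField M] [Algebra K M]
    (w : HeightOneSpectrum (𝓞 M)) (g : M ≃ₐ[K] M) {q : ℕ} (hF : Frob g q w.asIdeal) (x : M) :
    w.valuation M (g x) = w.valuation M x := by
  have hq : q ≠ 0 := by
    rintro rfl
    have h1 := hF 0
    rw [smul_zero, pow_zero, zero_sub, neg_mem_iff] at h1
    exact w.isPrime.ne_top ((Ideal.eq_top_iff_one _).2 h1)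
  refine val_stab w g (stab_of_frob w g hq fun x y hy => ?_) x
  have h1 : y = g • x := by
    ext
    rw [hy]
    rfl
  rw [h1]
  exact hF x

/-- [VALX] -/
theorem VALX : VALXStmt := by
  intro K L L' E _ _ _ _ _ _ _ _ _ _ _ _ _ _ _ n n' σ σ' s s' hX x y hx hy γ δ hγδ hγ hδ w a b q hF
  have hγ0 := ne_zero_of_prod hX.cyc.pos hx hγ
  have hδ0 := ne_zero_of_prod hX.cyc'.pos hy hδ
  have h1 : s' γ / γ = s δ / δ := by
    rw [div_eq_div_iff hγ0 hδ0, hγδ]
    ring
  have h2 := crossing_field (cross_comm hX) hγ0 hδ0 h1 hγ hδ (w.valuation E)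
    (val_frob w _ hF)
  obtain ⟨k, hk⟩ := h2
  refine ⟨-k, ?_⟩
  simp only [ordv]
  push_cast at hk
  linarith

end Vale.Agent.P022.H477.CF
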