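import Vale.Agent.P022.H567.Cft

/-!
P022-CFT, block [COMP]: the compositum `L ⊗ L'`.
-/

open Finset IsDedekindDomain TensorProduct
open scoped NumberField

noncomputable section

namespace Vale.Agent.P022.H477.CF

open Vale.Agent.P022.C

/-- the compositum -/
def Cp (K L L' : Type) [Field K] [Field L] [Field L'] [Algebra K L] [Algebra K L'] : Type :=
  L ⊗[K] L'

section

variable (K L L' : Type) [Field K] [Field L] [Field L'] [Algebra K L] [Algebra K L']

instance : CommRing (Cp K L L') := inferInstanceAs (CommRing (L ⊗[K] L'))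

instance [h : Fact (IsField (L ⊗[K] L'))] : Field (Cp K L L') :=
  { (inferInstance : CommRing (Cp K L L')), (h.out.toField : Field (L ⊗[K] L')) with }

variable [Fact (IsField (L ⊗[K] L'))]

instance : Algebra K (Cp K L L') :=
  (algebraMap K (L ⊗[K] L') : K →+* Cp K L L').toAlgebra

instance : Algebra L (Cp K L L') :=
  ((Algebra.TensorProduct.includeLeft : L →ₐ[K] L ⊗[K] L').toRingHom : L →+* Cp K L L').toAlgebra

instance : Algebra L' (Cp K L L') :=
  ((Algebra.TensorProduct.includeRight : L' →ₐ[K] L ⊗[K] L').toRingHom :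
    L' →+* Cp K L L').toAlgebra

theorem algK (x : K) : algebraMap K (Cp K L L') x = algebraMap K (L ⊗[K] L') x := rfl

theorem algL (x : L) : algebraMap L (Cp K L L') x = (x ⊗ₜ[K] (1 : L') : L ⊗[K] L') := rfl

theorem algL' (x : L') : algebraMap L' (Cp K L L') x = ((1 : L) ⊗ₜ[K] x : L ⊗[K] L') := rfl

instance : IsScalarTower K L (Cp K L L') := IsScalarTower.of_algebraMap_eq fun x => by
  rw [algL, algK]
  exact ((Algebra.TensorProduct.includeLeft : L →ₐ[K] L ⊗[K] L').commutes x).symm

instance : IsScalarTower K L' (Cp K L L') := IsScalarTower.of_algebraMap_eq fun x => by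
  rw [algL', algK]
  exact ((Algebra.TensorProduct.includeRight : L' →ₐ[K] L ⊗[K] L').commutes x).symm

/-- identity, as an isomorphism of algebras -/
def cpE : (L ⊗[K] L') ≃ₐ[K] Cp K L L' :=
  AlgEquiv.ofRingEquiv (f := (RingEquiv.refl (L ⊗[K] L') : (L ⊗[K] L') ≃+* Cp K L L'))
    fun _ => rfl

variable {K L L'}

/-- `σ ⊗ 1` -/
def sl (σ : L ≃ₐ[K] L) : Cp K L L' ≃ₐ[K] Cp K L L' :=
  ((cpE K L L').symm.trans (Algebra.TensorProduct.congr σ AlgEquiv.refl)).trans (cpE K L L')

/-- `1 ⊗ σ'` -/
def sr (σ' : L' ≃ₐ[K] L') : Cp K L L' ≃ₐ[K] Cp K L L' :=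
  ((cpE K L L').symm.trans (Algebra.TensorProduct.congr AlgEquiv.refl σ')).trans (cpE K L L')

theorem rank_cp [Module.Finite K L] [Module.Finite K L'] :
    Module.finrank K (Cp K L L') = Module.finrank K L * Module.finrank K L' := by
  rw [← (cpE K L L').toLinearEquiv.finrank_eq, Module.finrank_tensorProduct]

theorem ext_cp (t : Cp K L L' ≃ₐ[K] Cp K L L')
    (h1 : ∀ x : L, t (algebraMap L (Cp K L L') x) = algebraMap L (Cp K L L') x)
    (h2 : ∀ x : L', t (algebraMap L' (Cp K L L') x) = algebraMap L' (Cp K L L') x) : t = 1 := by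
  ext z
  have h3 : ∀ z : L ⊗[K] L', t (cpE K L L' z) = cpE K L L' z := by
    intro z
    induction z using TensorProduct.induction_on with
    | zero => simp
    | add x y hx hy => rw [map_add, map_add, hx, hy]
    | tmul x y =>
      have e : (cpE K L L' (x ⊗ₜ[K] y) : Cp K L L') =
          algebraMap L (Cp K L L') x * algebraMap L' (Cp K L L') y := by
        have : (x ⊗ₜ[K] y : L ⊗[K] L') = (x ⊗ₜ[K] (1 : L')) * ((1 : L) ⊗ₜ[K] y) := by
          rw [Algebra.TensorProduct.tmul_mul_tmul, mul_one, one_mul]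
        rw [this, map_mul]
        rfl
      rw [e, map_mul, h1, h2]
  exact h3 z

end

/-- [COMP] -/
theorem COMP : COMPStmt := by
  intro K L L' _ _ _ _ _ _ _ _ n n' σ σ' hσ hσ' hF
  have : Fact (IsField (L ⊗[K] L')) := ⟨hF⟩
  have f1 : Module.Finite K L := Module.Finite.of_restrictScalars_finite ℚ K L
  have f2 : Module.Finite K L' := Module.Finite.of_restrictScalars_finite ℚ K L'
  have f3 : Module.Finite K (Cp K L L') :=
    Module.Finite.equiv (cpE K L L').toLinearEquiv
  have c0 : CharZero (Cp K L L') := charZero_of_injective_algebraMap (algebraMap K _).injective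
  have f4 : FiniteDimensional ℚ (Cp K L L') := FiniteDimensional.trans ℚ K (Cp K L L')
  refine ⟨Cp K L L', inferInstance, ⟨⟩, inferInstance, inferInstance, inferInstance, inferInstance,
    inferInstance, sl σ, sr σ', hσ, hσ', ?_, ?_, ?_, ?_, ?_, ext_cp⟩
  · rw [rank_cp, hσ.rank, hσ'.rank]
  · intro x
    change (Algebra.TensorProduct.congr σ AlgEquiv.refl (x ⊗ₜ[K] (1 : L')) : L ⊗[K] L') = _
    rw [Algebra.TensorProduct.congr_apply, Algebra.TensorProduct.map_tmul]
    rfl
  · intro x
    change (Algebra.TensorProduct.congr σ AlgEquiv.refl ((1 : L) ⊗ₜ[K] x) : L ⊗[K] L') = _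
    rw [Algebra.TensorProduct.congr_apply, Algebra.TensorProduct.map_tmul]
    simp [algL']
  · intro x
    change (Algebra.TensorProduct.congr AlgEquiv.refl σ' (x ⊗ₜ[K] (1 : L')) : L ⊗[K] L') = _
    rw [Algebra.TensorProduct.congr_apply, Algebra.TensorProduct.map_tmul]
    simp [algL]
  · intro x
    change (Algebra.TensorProduct.congr AlgEquiv.refl σ' ((1 : L) ⊗ₜ[K] x) : L ⊗[K] L') = _
    rw [Algebra.TensorProduct.congr_apply, Algebra.TensorProduct.map_tmul]
    rfl

end Vale.Agent.P022.H477.CF
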