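import Mathlib

/-!
P022-CFT, block [D]: the crossing congruence (potential on `ℤ²`).
-/

open Finset

namespace Vale.Agent.P022.H477.CF

/-! ### the potential -/

section potential

variable {p q : ℕ → ℕ → ℤ}

/-- the potential -/
def pot (p q : ℕ → ℕ → ℤ) (i j : ℕ) : ℤ := ∑ k ∈ range i, p k 0 + ∑ l ∈ range j, q i l

theorem pot_succ_left (h : ∀ i j, p i (j + 1) - p i j = q (i + 1) j - q i j) (i j : ℕ) :
    pot p q (i + 1) j = pot p q i j + p i j := by
  have h1 : ∑ l ∈ range j, q (i + 1) l - ∑ l ∈ range j, q i l = p i j - p i 0 := by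
    rw [← sum_sub_distrib, ← Finset.sum_range_sub]
    exact sum_congr rfl fun l _ => (h i l).symm
  simp only [pot, sum_range_succ]
  linarith

theorem pot_succ_right (i j : ℕ) : pot p q i (j + 1) = pot p q i j + q i j := by
  simp only [pot, sum_range_succ]
  ring

theorem pot_add_left (h : ∀ i j, p i (j + 1) - p i j = q (i + 1) j - q i j) (i j n : ℕ) :
    pot p q (i + n) j = pot p q i j + ∑ k ∈ range n, p (i + k) j := by
  induction n with
  | zero => simp
  | succ n ih => rw [← add_assoc, pot_succ_left h, ih, sum_range_succ]; ring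

theorem pot_add_right (i j n : ℕ) :
    pot p q i (j + n) = pot p q i j + ∑ l ∈ range n, q i (j + l) := by
  induction n with
  | zero => simp
  | succ n ih => rw [← add_assoc, pot_succ_right, ih, sum_range_succ]; ring

/-- **The crossing congruence on `ℕ²`.** -/
theorem potential {n N a b : ℕ} {A B : ℤ}
    (h : ∀ i j, p i (j + 1) - p i j = q (i + 1) j - q i j)
    (hA : ∀ i j, ∑ k ∈ range n, p (i + k) j = A) (hB : ∀ i j, ∑ l ∈ range N, q i (j + l) = B)
    (hp : ∀ i j, p (i + a) (j + b) = p i j) (hq : ∀ i j, q (i + a) (j + b) = q i j) :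
    ((n * N : ℕ) : ℤ) ∣ N * a * A + n * b * B := by
  have h1 : ∀ k i j, pot p q (i + k * n) j = pot p q i j + k * A := by
    intro k
    induction k with
    | zero => simp
    | succ k ih =>
      intro i j
      rw [add_mul, one_mul, ← add_assoc, pot_add_left h, ih, hA]
      push_cast; ring
  have h2 : ∀ k i j, pot p q i (j + k * N) = pot p q i j + k * B := by
    intro k
    induction k with
    | zero => simp
    | succ k ih =>
      intro i j
      rw [add_mul, one_mul, ← add_assoc, pot_add_right, ih, hB]
      push_cast; ring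
  have h3 : ∀ i j, pot p q (i + a) (j + b) = pot p q i j + pot p q a b := by
    have h4 : ∀ i, pot p q (i + a) (0 + b) = pot p q i 0 + pot p q a b := by
      intro i
      induction i with
      | zero => simp [pot]
      | succ i ih =>
        rw [show i + 1 + a = i + a + 1 by ring, pot_succ_left h, pot_succ_left h, ih, hp]
        ring
    intro i j
    induction j with
    | zero => exact h4 i
    | succ j ih =>
      rw [show j + 1 + b = j + b + 1 by ring, pot_succ_right, pot_succ_right, ih, hq]
      ring
  have h5 : ∀ k, pot p q (k * a) (k * b) = k * pot p q a b := by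
    intro k
    induction k with
    | zero => simp [pot]
    | succ k ih =>
      rw [add_mul, one_mul, add_mul, one_mul, h3, ih]
      push_cast; ring
  refine ⟨pot p q a b, ?_⟩
  have h6 := h5 (n * N)
  have h7 := h1 (N * a) 0 0
  have h8 := h2 (n * b) (0 + N * a * n) 0
  rw [h7] at h8
  have h9 : pot p q 0 0 = 0 := by simp [pot]
  rw [h9, zero_add, zero_add, zero_add] at h8
  rw [show n * N * a = N * a * n by ring, show n * N * b = n * b * N by ring, h8] at h6
  push_cast at h6 ⊢
  linarith

end potential

/-! ### two commuting automorphisms -/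

section group

variable {U : Type*} [CommGroup U]

/-- norm of a cyclic group of automorphisms -/
def nm (s : MulAut U) (n : ℕ) (x : U) : U := ∏ k ∈ range n, (s ^ k) x

/-- **The crossing congruence**: `α = N_σ y`, `β = N_τ z`, `τ y / y = σ z / z`, and the
valuation `u` is invariant under `σ ^ a τ ^ b`. -/
theorem crossing {s t : MulAut U} (hst : Commute s t) {n N a b : ℕ} {y z : U}
    (hyz : t y / y = s z / z) (u : U →* Multiplicative ℤ)
    (hu : ∀ x, u ((s ^ a * t ^ b) x) = u x)
    (hαs : s (nm s n y) = nm s n y) (hαt : t (nm s n y) = nm s n y)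
    (hβs : s (nm t N z) = nm t N z) (hβt : t (nm t N z) = nm t N z) :
    ((n * N : ℕ) : ℤ) ∣ N * a * (u (nm s n y)).toAdd + n * b * (u (nm t N z)).toAdd := by
  have hfix : ∀ (r : MulAut U) (k : ℕ) (x : U), r x = x → (r ^ k) x = x := by
    intro r k x hx
    induction k with
    | zero => rfl
    | succ k ih => rw [pow_succ', MulAut.mul_apply, ih, hx]
  have hc : ∀ i j, Commute (s ^ i) (t ^ j) := fun i j => hst.pow_pow i j
  refine potential (p := fun i j => (u ((s ^ i * t ^ j) y)).toAdd)
    (q := fun i j => (u ((s ^ i * t ^ j) z)).toAdd) ?_ ?_ ?_ ?_ ?_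
  · intro i j
    have h1 := congrArg (fun x => u ((s ^ i * t ^ j) x)) hyz
    simp only [map_div] at h1
    have e1 : (s ^ i * t ^ j) (t y) = (s ^ i * t ^ (j + 1)) y := by
      rw [pow_succ, ← mul_assoc]; rfl
    have e2 : (s ^ i * t ^ j) (s z) = (s ^ (i + 1) * t ^ j) z := by
      have : s ^ (i + 1) * t ^ j = s ^ i * t ^ j * s := by
        rw [pow_succ, mul_assoc, mul_assoc, (hst.pow_right j).eq]
      rw [this]; rfl
    rw [e1, e2] at h1
    exact congrArg Multiplicative.toAdd h1
  · intro i j
    have h1 : (s ^ i * t ^ j) (nm s n y) = nm s n y := by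
      rw [MulAut.mul_apply, hfix t j _ hαt, hfix s i _ hαs]
    have h2 : (s ^ i * t ^ j) (nm s n y) = ∏ k ∈ range n, (s ^ (i + k) * t ^ j) y := by
      rw [nm, map_prod]
      refine prod_congr rfl fun k _ => ?_
      have : s ^ (i + k) * t ^ j = s ^ i * t ^ j * s ^ k := by
        rw [pow_add, mul_assoc, mul_assoc, (hc k j).eq]
      rw [this]; rfl
    rw [← h1, h2, map_prod, toAdd_prod]
  · intro i j
    have h1 : (s ^ i * t ^ j) (nm t N z) = nm t N z := by
      rw [MulAut.mul_apply, hfix t j _ hβt, hfix s i _ hβs]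
    have h2 : (s ^ i * t ^ j) (nm t N z) = ∏ k ∈ range N, (s ^ i * t ^ (j + k)) z := by
      rw [nm, map_prod]
      refine prod_congr rfl fun k _ => ?_
      rw [pow_add, ← mul_assoc]; rfl
    rw [← h1, h2, map_prod, toAdd_prod]
  · intro i j
    have : s ^ (i + a) * t ^ (j + b) = s ^ a * t ^ b * (s ^ i * t ^ j) := by
      rw [add_comm i a, add_comm j b, pow_add, pow_add, mul_assoc, mul_assoc, ← mul_assoc (s ^ i),
        (hc i b).eq]
      simp only [mul_assoc]
    simp only [this]
    rw [MulAut.mul_apply, hu]
  · intro i j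
    have : s ^ (i + a) * t ^ (j + b) = s ^ a * t ^ b * (s ^ i * t ^ j) := by
      rw [add_comm i a, add_comm j b, pow_add, pow_add, mul_assoc, mul_assoc, ← mul_assoc (s ^ i),
        (hc i b).eq]
      simp only [mul_assoc]
    simp only [this]
    rw [MulAut.mul_apply, hu]

end group

end Vale.Agent.P022.H477.CF
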