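import Vale.Agent.P022.H477.Cusp
import Vale.Agent.P022.H964.Mft

/-!
P022, real quadratic fields: [RMFT], Hecke's theta series of weight one is a modular form for
`Γ₁(D m²)`, with the action of the diamond operators.
-/

open UpperHalfPlane hiding I
open Filter Topology Matrix.SpecialLinearGroup CongruenceSubgroup Complex
open scoped MatrixGroups ModularForm Manifold Real ComplexConjugate

noncomputable section

namespace Vale.Agent.P022.H477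

open Vale.Agent.P022 Vale.Agent.P022.H352

variable {a b c : ℤ} {D : ℕ}

/-! ## The law under `Γ₀(D m²)` -/

theorem per_smul {m : ℕ} {f : ℤ × ℤ → ℂ} (hf : Per m f) (d : ℤ) :
    Per m fun v => f (d • v) := by
  intro v w
  simp only
  rw [smul_add, smul_comm d (m : ℤ) w, hf]

theorem unit_smul {A : (ℤ × ℤ) ≃+ (ℤ × ℤ)} {f : ℤ × ℤ → ℂ} (hfA : ∀ v, f (A v) = f v) (d : ℤ)
    (v : ℤ × ℤ) : (fun v => f (d • v)) (A v) = (fun v => f (d • v)) v := by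
  simp only
  rw [← map_zsmul, hfA]

/-- the law, last entry odd -/
theorem law_odd (hU : RUNFStmt) (hL : RLAW1Stmt) (ha : 0 < a) {v D₀ : ℕ} (hD : D = 2 ^ v * D₀)
    (hD₀ : Odd D₀) (hns : ¬ IsSquare D) (h : b ^ 2 - 4 * a * c = D) {u : ℝ}
    {A : (ℤ × ℤ) ≃+ (ℤ × ℤ)} (hA : Unt a b D u A) {m : ℕ} (hm : 0 < m) {f : ℤ × ℤ → ℂ}
    (hf : Per m f) (hfA : ∀ v, f (A v) = f v) {p q r d : ℤ} (hd : Odd d)
    (hdet : p * d - q * r = 1) (hr : ((D * m ^ 2 : ℕ) : ℤ) ∣ r) {w : ℂ} (hw : 0 < w.im) :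
    hR a b c D u 1 f ((p * w + q) / (r * w + d)) =
      krP v D₀ d * (r * w + d) * hR a b c D u 1 (fun v => f (d • v)) w := by
  have hz : (r : ℂ) * w + d ≠ 0 := by
    intro h0
    have h1 : ((r : ℂ) * w + d).im = 0 := by rw [h0]; simp
    have h2 : (r : ℝ) * w.im = 0 := by simpa using h1
    have h3 : (r : ℝ) = 0 := (mul_eq_zero.1 h2).resolve_right hw.ne'
    have h4 : r = 0 := by exact_mod_cast h3
    subst h4
    have h5 : (d : ℂ) = 0 := by simpa using h0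
    have h6 : d = 0 := by exact_mod_cast h5
    subst h6
    simp at hd
  have hn : 0 < ‖(r : ℂ) * w + d‖ := norm_pos_iff.2 hz
  set w' : ℂ := (p * w + q) / (r * w + d) with hw'
  have hdetC : (p : ℂ) * d - q * r = 1 := by exact_mod_cast hdet
  have him : w'.im = w.im / ‖(r : ℂ) * w + d‖ ^ 2 := by
    have hdetR : (p : ℝ) * d - q * r = 1 := by exact_mod_cast hdet
    rw [hw', Complex.div_im, ← Complex.normSq_eq_norm_sq]
    simp only [Complex.add_im, Complex.add_re, Complex.mul_im, Complex.mul_re,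
      Complex.intCast_re, Complex.intCast_im]
    have h1 : Complex.normSq ((r : ℂ) * w + d) ≠ 0 := by
      rw [Ne, Complex.normSq_eq_zero]; exact hz
    field_simp
    linear_combination (w.im) * hdetR
  have him0 : 0 < w'.im := by rw [him]; positivity
  have hsq : √w'.im = √w.im / ‖(r : ℂ) * w + d‖ := by
    rw [him, Real.sqrt_div hw.le, Real.sqrt_sq hn.le]
  have hy : (√w.im : ℝ) ≠ 0 := (Real.sqrt_pos.2 hw).ne'
  have hyC : ((√w.im : ℝ) : ℂ) ≠ 0 := by exact_mod_cast hy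
  have hnC : ((‖(r : ℂ) * w + d‖ : ℝ) : ℂ) ≠ 0 := by exact_mod_cast hn.ne'
  obtain ⟨u1, -⟩ := hU a b c D ha hns h u A hA m hm f hf hfA w' him0
  obtain ⟨v1, -⟩ := hU a b c D ha hns h u A hA m hm _ (per_smul hf d) (unit_smul hfA d) w hw
  have e1 : (∫ t in (0 : ℝ)..Real.log u, Tp a b D (Real.exp t) f w') =
      (krP v D₀ d * (r * w + d) * ‖(r : ℂ) * w + d‖) *
        ∫ t in (0 : ℝ)..Real.log u, Tp a b D (Real.exp t) (fun v => f (d • v)) w := by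
    rw [← intervalIntegral.integral_const_mul]
    refine intervalIntegral.integral_congr fun t _ => ?_
    exact (hL a b c D v D₀ ha hD hD₀ h m hm f hf p q r d hd hdet hr _ (Real.exp_pos t) w hw).1
  rw [u1, v1, hsq] at e1
  have hy' : ((√w.im / ‖(r : ℂ) * w + d‖ : ℝ) : ℂ) ≠ 0 := by
    push_cast
    exact div_ne_zero hyC hnC
  rw [div_eq_iff (mul_ne_zero two_ne_zero hy')] at e1
  rw [e1]
  push_cast
  field_simp

/-! ## The character -/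

theorem disc_mod (h : b ^ 2 - 4 * a * c = D) : D % 4 = 0 ∨ D % 4 = 1 := by
  have h1 : (D : ℤ) % 4 = 0 ∨ (D : ℤ) % 4 = 1 := by
    rw [← h]
    rcases Int.even_or_odd b with ⟨k, hk⟩ | ⟨k, hk⟩
    · left
      subst hk
      ring_nf
      omega
    · right
      subst hk
      ring_nf
      omega
  omega

theorem krP_one (h : b ^ 2 - 4 * a * c = D) {v D₀ : ℕ} (hD : D = 2 ^ v * D₀) (hD₀ : Odd D₀)
    {d : ℤ} (hd : Odd d) (hd1 : (D : ℤ) ∣ d - 1) : krP v D₀ d = 1 := by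
  have hJ : jacobiSym d D₀ = 1 := by
    have h3 : (D₀ : ℤ) ∣ d - 1 := dvd_trans ⟨2 ^ v, by rw [hD]; push_cast; ring⟩ hd1
    have h4 : d % (D₀ : ℤ) = 1 % (D₀ : ℤ) := (Int.modEq_iff_dvd.2 h3).symm
    rw [jacobiSym.mod_left, h4, ← jacobiSym.mod_left, jacobiSym.one_left]
  have hdm := disc_mod h
  obtain ⟨k, hk⟩ := hD₀
  have h4 : ∀ {e : ℤ}, (4 : ℤ) ∣ e - 1 → ZMod.χ₄ (e : ZMod 4) = 1 := by
    intro e he
    have : ((e : ℤ) : ZMod 4) = 1 := by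
      have h5 : ((e - 1 : ℤ) : ZMod 4) = 0 := (ZMod.intCast_zmod_eq_zero_iff_dvd _ 4).2 he
      push_cast at h5
      exact sub_eq_zero.1 h5
    rw [this, map_one]
  rcases v with _ | _ | _ | v
  · have h5 : D = D₀ := by simpa using hD
    have h6 : ¬ D₀ % 4 = 3 := by omega
    simp [krP, hJ, h6]
  · exfalso
    have h5 : D = 2 * D₀ := by simpa using hD
    omega
  · have h5 : D = 4 * D₀ := by rw [hD]; norm_num
    have h6 : (4 : ℤ) ∣ d - 1 := dvd_trans ⟨(D₀ : ℤ), by rw [h5]; push_cast; ring⟩ hd1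
    have h7 : ZMod.χ₈ (d : ZMod 8) ^ 2 = 1 := by
      obtain ⟨j, hj⟩ := hd
      have h8 : (d : ZMod 8) = 2 * (j : ZMod 8) + 1 := by rw [hj]; push_cast; ring
      rw [h8]
      generalize (j : ZMod 8) = x
      revert x
      decide
    have e : krP (0 + 1 + 1) D₀ d = ZMod.χ₈ (d : ZMod 8) ^ 2 *
        (if D₀ % 4 = 3 then ZMod.χ₄ (d : ZMod 4) else 1) * jacobiSym d D₀ := rfl
    rw [e, h7, h4 h6, hJ]
    simp
  · have h5 : D = 8 * (2 ^ v * D₀) := by rw [hD]; ring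
    have h6 : (8 : ℤ) ∣ d - 1 := dvd_trans ⟨((2 ^ v * D₀ : ℕ) : ℤ), by rw [h5]; push_cast; ring⟩ hd1
    have h7 : ((d : ℤ) : ZMod 8) = 1 := by
      have h8 : ((d - 1 : ℤ) : ZMod 8) = 0 := (ZMod.intCast_zmod_eq_zero_iff_dvd _ 8).2 h6
      push_cast at h8
      exact sub_eq_zero.1 h8
    have h8 : (4 : ℤ) ∣ d - 1 := dvd_trans ⟨2, by norm_num⟩ h6
    simp [krP, hJ, h4 h8, h7]

/-! ## The modular form -/

/-- Hecke's theta series on the upper half plane -/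
def H0 (a b c : ℤ) (D : ℕ) (u : ℝ) (f : ℤ × ℤ → ℂ) (τ : ℍ) : ℂ := hR a b c D u 1 f τ

theorem H0_eq (a b c : ℤ) (D : ℕ) (u : ℝ) (f : ℤ × ℤ → ℂ) :
    H0 a b c D u f = HR a b c D u 1 1 f := by
  funext τ
  simp [H0, HR]

theorem slash_odd (hU : RUNFStmt) (hL : RLAW1Stmt) (ha : 0 < a) {v D₀ : ℕ} (hD : D = 2 ^ v * D₀)
    (hD₀ : Odd D₀) (hns : ¬ IsSquare D) (h : b ^ 2 - 4 * a * c = D) {u : ℝ}
    {A : (ℤ × ℤ) ≃+ (ℤ × ℤ)} (hA : Unt a b D u A) {m : ℕ} (hm : 0 < m) {f : ℤ × ℤ → ℂ}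
    (hf : Per m f) (hfA : ∀ v, f (A v) = f v) (γ : SL(2, ℤ))
    (hγ : ((D * m ^ 2 : ℕ) : ℤ) ∣ γ 1 0) (hodd : Odd (γ 1 1)) (τ : ℍ) :
    (H0 a b c D u f ∣[(1 : ℤ)] γ) τ =
      krP v D₀ (γ 1 1) * hR a b c D u 1 (fun v => f ((γ 1 1) • v)) τ := by
  have hdet : γ 0 0 * γ 1 1 - γ 0 1 * γ 1 0 = 1 := by
    have := γ.det_coe
    rwa [Matrix.det_fin_two] at this
  have h1 := law_odd hU hL ha hD hD₀ hns h hA hm hf hfA hodd hdet hγ τ.im_pos
  have hden : denom γ τ = (γ 1 0 : ℂ) * τ + γ 1 1 := by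
    rw [ModularGroup.denom_apply]
  have h2 : ((γ • τ : ℍ) : ℂ) = ((γ 0 0 : ℂ) * τ + γ 0 1) / ((γ 1 0 : ℂ) * τ + γ 1 1) := by
    rw [UpperHalfPlane.coe_specialLinearGroup_apply]
    simp
  have hne : (γ 1 0 : ℂ) * τ + γ 1 1 ≠ 0 := by
    rw [← hden]; exact UpperHalfPlane.denom_ne_zero _ _
  rw [ModularForm.SL_slash_apply, hden]
  simp only [H0]
  rw [h2, h1, zpow_neg, zpow_one]
  field_simp

theorem inv_odd (hU : RUNFStmt) (hL : RLAW1Stmt) (ha : 0 < a) {v D₀ : ℕ} (hD : D = 2 ^ v * D₀)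
    (hD₀ : Odd D₀) (hns : ¬ IsSquare D) (h : b ^ 2 - 4 * a * c = D) {u : ℝ}
    {A : (ℤ × ℤ) ≃+ (ℤ × ℤ)} (hA : Unt a b D u A) {m : ℕ} (hm : 0 < m) {f : ℤ × ℤ → ℂ}
    (hf : Per m f) (hfA : ∀ v, f (A v) = f v) (γ : SL(2, ℤ)) (hγ : γ ∈ Gamma1 (D * m ^ 2))
    (hodd : Odd (γ 1 1)) : H0 a b c D u f ∣[(1 : ℤ)] γ = H0 a b c D u f := by
  funext τ
  rw [Gamma1_mem] at hγ
  obtain ⟨-, h11, h10⟩ := hγ
  have h10' : ((D * m ^ 2 : ℕ) : ℤ) ∣ γ 1 0 := (ZMod.intCast_zmod_eq_zero_iff_dvd _ _).1 h10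
  have h11' : ((D * m ^ 2 : ℕ) : ℤ) ∣ γ 1 1 - 1 := by
    rw [← ZMod.intCast_zmod_eq_zero_iff_dvd]
    push_cast
    rw [h11, sub_self]
  rw [slash_odd hU hL ha hD hD₀ hns h hA hm hf hfA γ h10' hodd]
  have hJ : krP v D₀ (γ 1 1) = 1 :=
    krP_one h hD hD₀ hodd (dvd_trans ⟨(m : ℤ) ^ 2, by push_cast; ring⟩ h11')
  have hF : (fun v => f ((γ 1 1) • v)) = f := by
    funext v
    obtain ⟨z, hz⟩ := dvd_trans (⟨(D : ℤ) * m, by push_cast; ring⟩ :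
      (m : ℤ) ∣ ((D * m ^ 2 : ℕ) : ℤ)) h11'
    have h5 : (γ 1 1) • v = v + (m : ℤ) • (z • v) := by
      rw [smul_smul, ← hz, sub_smul, one_smul]
      abel
    rw [h5, hf]
  rw [hJ, hF, Int.cast_one, one_mul]
  rfl

theorem inv_law (hU : RUNFStmt) (hL : RLAW1Stmt) (ha : 0 < a) {v D₀ : ℕ} (hD : D = 2 ^ v * D₀)
    (hD₀ : Odd D₀) (hns : ¬ IsSquare D) (h : b ^ 2 - 4 * a * c = D) {u : ℝ}
    {A : (ℤ × ℤ) ≃+ (ℤ × ℤ)} (hA : Unt a b D u A) {m : ℕ} (hm : 0 < m) {f : ℤ × ℤ → ℂ}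
    (hf : Per m f) (hfA : ∀ v, f (A v) = f v) (γ : SL(2, ℤ)) (hγ : γ ∈ Gamma1 (D * m ^ 2)) :
    H0 a b c D u f ∣[(1 : ℤ)] γ = H0 a b c D u f := by
  rcases Int.even_or_odd (γ 1 1) with he | ho
  · have hT : ModularGroup.T ∈ Gamma1 (D * m ^ 2) := by
      rw [Gamma1_mem]
      simp [ModularGroup.T]
    have h1 : H0 a b c D u f ∣[(1 : ℤ)] ModularGroup.T = H0 a b c D u f :=
      inv_odd hU hL ha hD hD₀ hns h hA hm hf hfA _ hT (by simp [ModularGroup.T])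
    have h2 : H0 a b c D u f ∣[(1 : ℤ)] ModularGroup.T⁻¹ = H0 a b c D u f := by
      conv_lhs => rw [← h1]
      rw [← SlashAction.slash_mul, mul_inv_cancel, SlashAction.slash_one]
    have hdet : γ 0 0 * γ 1 1 - γ 0 1 * γ 1 0 = 1 := by
      have := γ.det_coe
      rwa [Matrix.det_fin_two] at this
    have h3 : (γ * ModularGroup.T) 1 1 = γ 1 0 + γ 1 1 := by
      rw [Matrix.SpecialLinearGroup.coe_mul, ModularGroup.coe_T]
      simp [Matrix.mul_apply, Fin.sum_univ_two]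
    have h4 : Odd ((γ * ModularGroup.T) 1 1) := by
      rw [h3]
      have h5 : Odd (γ 1 0) := by
        by_contra hc
        rw [Int.not_odd_iff_even] at hc
        have h6 : Even (1 : ℤ) := by
          rw [← hdet]
          exact (he.mul_left _).sub (hc.mul_left _)
        exact absurd h6 (by decide)
      exact h5.add_even he
    have h5 := inv_odd hU hL ha hD hD₀ hns h hA hm hf hfA _ (mul_mem hγ hT) h4
    calc H0 a b c D u f ∣[(1 : ℤ)] γ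
        = (H0 a b c D u f ∣[(1 : ℤ)] (γ * ModularGroup.T)) ∣[(1 : ℤ)] ModularGroup.T⁻¹ := by
          rw [← SlashAction.slash_mul, mul_inv_cancel_right]
      _ = H0 a b c D u f := by rw [h5, h2]
  · exact inv_odd hU hL ha hD hD₀ hns h hA hm hf hfA γ hγ ho

theorem dia_law (hU : RUNFStmt) (hL : RLAW1Stmt) (ha : 0 < a) {v D₀ : ℕ} (hD : D = 2 ^ v * D₀)
    (hD₀ : Odd D₀) (hns : ¬ IsSquare D) (h : b ^ 2 - 4 * a * c = D) {u : ℝ}
    {A : (ℤ × ℤ) ≃+ (ℤ × ℤ)} (hA : Unt a b D u A) {m : ℕ} (hm : 0 < m) {f : ℤ × ℤ → ℂ}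
    (hf : Per m f) (hfA : ∀ v, f (A v) = f v) (ℓ : PA (D * m ^ 2)) (τ : ℍ) :
    dFun (D * m ^ 2) 1 ℓ (H0 a b c D u f) τ =
      krP v D₀ (ℓ.1 : ℤ) * hR a b c D u 1 (fun v => f ((ℓ.1 : ℤ) • v)) τ := by
  have h10 : (gd (D * m ^ 2) ℓ.1 ℓ.coprime) 1 0 = ((D * m ^ 2 : ℕ) : ℤ) := by
    simp [gd]
  have h11 : (gd (D * m ^ 2) ℓ.1 ℓ.coprime) 1 1 = (ℓ.1 : ℤ) := by
    simp [gd]
  have hodd : Odd (ℓ.1 : ℤ) := by
    have h2 : ℓ.1 ≠ 2 := by
      intro h2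
      exact ℓ.2.2 (by rw [h2]; exact dvd_mul_right _ _)
    have := ℓ.2.1.odd_of_ne_two h2
    exact_mod_cast this
  have := slash_odd hU hL ha hD hD₀ hns h hA hm hf hfA (gd (D * m ^ 2) ℓ.1 ℓ.coprime)
    (by rw [h10]) (by rw [h11]; exact hodd) τ
  rw [h11] at this
  exact this

/-- **[RMFT] from [RPO], [RUNF], [RLAW1].** -/
theorem RMFT (hP : RPOStmt) (hU : RUNFStmt) (hL : RLAW1Stmt) : RMFTStmt := by
  intro a b c D v D₀ ha hD hD₀ hns h u A hA m hm f hf hfA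
  have hD0 : 0 < D := pos_of_ns hns
  have : NeZero (D * m ^ 2) := ⟨by positivity⟩
  refine ⟨H964.mk (k := ((1 : ℕ) : ℤ)) (H0 a b c D u f) ?_ ?_ ?_, fun τ => rfl,
    fun ℓ τ => dia_law hU hL ha hD hD₀ hns h hA hm hf hfA ℓ τ⟩
  · rw [H0_eq]
    exact mdiff_HR ha hns h u (Or.inl rfl) one_pos hm hf
  · intro γ
    exact bdd_all hP hU ha hns h hA ⟨1, 1, 1, f, m, one_pos, Or.inl rfl, hm, hf, hfA,
      fun τ => by rw [one_mul]; simp [H0]⟩ γ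
  · exact fun γ hγ => inv_law hU hL ha hD hD₀ hns h hA hm hf hfA γ hγ

end Vale.Agent.P022.H477
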